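import Vale.Agent.P167.H72.SD.Bank
import Vale.Agent.P167.QG.Dmp
import Vale.Agent.P167.H161.Expd
import Vale.Agent.P167.H161.Frz

/-!
# P167, general `q`, [SAND-LAT]: the banks of the explored domain

`dk p k S A j` : the squares which are not read in the first steps of the interface, with the
configuration `cfg (wiredOpen p k A)` outside.

* `Wr D η` : the even corners of the `η`-open squares outside of `D`; `joined_dk`: they are joined;
* `Fr D η` : the odd corners of the `η`-closed read squares; `free_dk`: they are joined by closed read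
  squares to outer faces which the interface has met.
-/

set_option autoImplicit false

namespace Vale.Agent.P167.H72.SD

open Finset Relation Vale.Agent.P167.FK
open Vale.Agent.P145.FB (PStep)
open Vale.Agent.P167.FKA (Cor)
open Vale.Agent.P167.E6 (IsPolygon Encloses edges wiredOpen face dir)
open Vale.Agent.P167.H718 (Dq)
open Vale.Agent.P167.H161 (Rd sp sr eo ec)

variable {n : ℕ} {p : ZMod n → ℤ × ℤ} {S : Finset (ℤ × ℤ)} {k : ℕ} {A : Finset (Sym2 (ℤ × ℤ))}

/-- The configuration. -/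
noncomputable abbrev om (p : ZMod n → ℤ × ℤ) (k : ℕ) (A : Finset (Sym2 (ℤ × ℤ))) : Cfg :=
  H192.cfg (wiredOpen p k A)

/-- The domain which is left after `j` steps. -/
noncomputable def dk (p : ZMod n → ℤ × ℤ) (k : ℕ) (S : Finset (ℤ × ℤ)) (A : Finset (Sym2 (ℤ × ℤ)))
    (j : ℕ) : Finset (ℤ × ℤ) := Dq S p k \ Rd p k S A j

/-- The even corners of the open squares outside of `D`. -/
def Wr (D : Finset (ℤ × ℤ)) (η : Cfg) : Set (ℤ × ℤ) :=
  {s | Even (s.1 + s.2) ∧ ∃ v, v ∉ D ∧ η v = true ∧ Cor v s}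

theorem om_true {v : ℤ × ℤ} : om p k A v = true ↔
    H192.ed v ∈ A ∨ ∃ i : ℕ, k ≤ i ∧ i + 1 < n ∧ H192.ed v = s(p i, p (i + 1)) := by
  unfold om
  rw [H192.cfg_true, H718.mem_wiredOpen, H718.mem_wE]

/-- On the read squares the configuration is that of `A`. -/
theorem om_rd {j : ℕ} {v : ℤ × ℤ} (hv : v ∈ Rd p k S A j) :
    om p k A v = H192.cfg (A : Set (Sym2 (ℤ × ℤ))) v := by
  have h1 := H161.Rd_subset j hv
  rw [QG.dq_eq] at h1
  have h2 := (H718.mem_Dq' (v := v)).1 h1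
  by_cases h3 : H192.ed v ∈ A
  · rw [(H192.cfg_true).2 (show H192.ed v ∈ (A : Set (Sym2 (ℤ × ℤ))) from h3)]
    exact om_true.2 (Or.inl h3)
  · have h4 : ¬ om p k A v = true := by
      rw [om_true]
      rintro (h | h)
      · exact h3 h
      · exact h2.2 (H718.mem_wE.2 h)
    have h5 : ¬ H192.cfg (A : Set (Sym2 (ℤ × ℤ))) v = true := fun h => h3 (H192.cfg_true.1 h)
    rw [Bool.not_eq_true] at h4 h5
    rw [h4, h5]

/-- The squares outside of `Dq` which are open are those of the wired arc. -/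
theorem open_out (hA : A ⊆ edges S) {v : ℤ × ℤ} (h1 : v ∉ Dq S p k) (h2 : om p k A v = true) :
    ∃ i : ℕ, k ≤ i ∧ i + 1 < n ∧ H192.ed v = s(p i, p (i + 1)) := by
  rcases om_true.1 h2 with h | h
  · by_contra h3
    exact h1 ((H718.mem_Dq').2 ⟨hA h, fun h4 => h3 (H718.mem_wE.1 h4)⟩)
  · exact h

theorem ed_sqr_dir (a : ℤ × ℤ) (r : Fin 4) :
    sqr (H192.ro a) (H192.ro (a + dir r)) = H192.sq s(a, a + dir r) := by
  rw [H192.sq_dir]
  rfl

/-- Consecutive vertices of the wired arc are joined outside of `Dq`. -/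
theorem wired_step (hp : IsPolygon p) (D : Finset (ℤ × ℤ)) (hD : D ⊆ Dq S p k) {i : ℕ} (hi : k ≤ i)
    (hi' : i + 1 < n) : PStep (op (cf D (om p k A) ∅)) (H192.ro (p i))
      (H192.ro (p ((i + 1 : ℕ) : ZMod n))) := by
  obtain ⟨r, hr⟩ := hp.2.2 (i : ZMod n)
  have e1 : p ((i + 1 : ℕ) : ZMod n) = p i + dir r := by
    rw [← hr]
    push_cast
    rfl
  rw [e1]
  obtain ⟨h1, h2⟩ := H192.ro_dir (p i) r
  refine ⟨h1, h2, ?_⟩
  have h3 : (min (H192.ro (p i)).1 (H192.ro (p i + dir r)).1,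
      min (H192.ro (p i)).2 (H192.ro (p i + dir r)).2) = H192.sq s(p i, p i + dir r) :=
    ed_sqr_dir (p i) r
  rw [h3]
  have h4 : H192.ed (H192.sq s(p i, p i + dir r)) = s(p i, p (i + 1)) := by
    rw [H192.ed_sq ⟨p i, r, rfl⟩, hr]
  have h5 : H192.sq s(p i, p i + dir r) ∉ D := by
    intro h
    refine ((H718.mem_Dq').1 (hD h)).2 ?_
    rw [h4]
    exact H718.mem_wE.2 ⟨i, hi, hi', rfl⟩
  show cf D (om p k A) ∅ _ = true
  simp only [cf, h5, if_false]
  exact om_true.2 (Or.inr ⟨i, hi, hi', h4⟩)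

theorem wired_chain (hp : IsPolygon p) (D : Finset (ℤ × ℤ)) (hD : D ⊆ Dq S p k) {i j : ℕ}
    (hi : k ≤ i) (hij : i ≤ j) (hj : j < n) :
    PC (cf D (om p k A) ∅) (H192.ro (p i)) (H192.ro (p j)) := by
  induction j, hij using Nat.le_induction with
  | base => exact ReflTransGen.refl
  | succ j hij ih => exact (ih (by omega)).tail (wired_step hp D hD (by omega) hj)

theorem PC_symm {ω : Cfg} {s t : ℤ × ℤ} (h : PC ω s t) : PC ω t s := FKA.rtg_symm h

/-- **The wired bank and the wired arc are joined.** -/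
theorem joined_dk (hp : IsPolygon p) (hk : k < n) (hA : A ⊆ edges S) (j : ℕ) :
    Joined (dk p k S A j) (om p k A) (Wr (dk p k S A j) (om p k A)) := by
  -- every site is joined to a wired vertex
  have key : ∀ s ∈ Wr (dk p k S A j) (om p k A), ∃ i : ℕ, k ≤ i ∧ i < n ∧
      PC (cf (dk p k S A j) (om p k A) ∅) (H192.ro (p i)) s := by
    rintro s ⟨hse, v, hvD, hv, hvs⟩
    by_cases hq : v ∈ Dq S p k
    · -- a read square
      have hR : v ∈ Rd p k S A j := by
        by_contra h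
        exact hvD (mem_sdiff.2 ⟨hq, h⟩)
      have hv' : H192.cfg (A : Set (Sym2 (ℤ × ℤ))) v = true := by rw [← om_rd hR]; exact hv
      have h1 : v ∈ eo p k S (H192.cfg (A : Set (Sym2 (ℤ × ℤ)))) (j - 1) := ⟨hR, hv'⟩
      obtain ⟨i, hi1, hi2, h2⟩ := H161.open_wired hk _ h1 (Int.even_iff.1 hse) hvs.1 hvs.2
      refine ⟨i, hi1, hi2, H166.rtg_mono (fun w hw => ?_) h2⟩
      have hw1 : w ∈ Rd p k S A j := hw.1
      have hw2 : w ∉ dk p k S A j := fun h => (mem_sdiff.1 h).2 hw1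
      show cf _ _ ∅ w = true
      simp only [cf, hw2, if_false]
      rw [om_rd hw1]
      exact hw.2
    · -- the wired arc
      obtain ⟨i, hi1, hi2, h1⟩ := open_out hA hq hv
      obtain ⟨d, hd⟩ := hp.2.2 (i : ZMod n)
      have hv1 : v = H192.sq s(p i, p i + dir d) := by
        rw [← hd, ← h1, H192.sq_ed]
      have hc : s = H192.ro (p i) ∨ s = H192.ro (p i + dir d) := by
        have h3 : Cor (sqr (H192.ro (p i)) (H192.ro (p i + dir d))) s := by
          rw [ed_sqr_dir, ← hv1]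
          exact hvs
        obtain ⟨h4, h5⟩ := H192.ro_dir (p i) d
        have he1 := Int.even_iff.1 (H192.even_ro (p i))
        have he2 := Int.even_iff.1 (H192.even_ro (p i + dir d))
        have he3 := Int.even_iff.1 hse
        obtain ⟨h6, h7⟩ := h3
        unfold sqr at h6 h7
        dsimp only at h6 h7
        rw [Prod.ext_iff, Prod.ext_iff]
        omega
      rcases hc with rfl | rfl
      · exact ⟨i, hi1, by omega, ReflTransGen.refl⟩
      · refine ⟨i + 1, by omega, hi2, ?_⟩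
        have e1 : p ((i + 1 : ℕ) : ZMod n) = p i + dir d := by
          rw [← hd]
          push_cast
          rfl
        rw [e1]
        exact ReflTransGen.refl
  intro w hw w' hw'
  obtain ⟨i, h1, h2, h3⟩ := key w hw
  obtain ⟨i', h1', h2', h3'⟩ := key w' hw'
  have h4 : PC (cf (dk p k S A j) (om p k A) ∅) (H192.ro (p i)) (H192.ro (p i')) := by
    rcases le_total i i' with h | h
    · exact wired_chain hp _ sdiff_subset h1 h h2'
    · exact PC_symm (wired_chain hp _ sdiff_subset h1' h h2)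
  exact (PC_symm h3).trans (h4.trans h3')

/-- The odd corners of the closed read squares. -/
def Fr (p : ZMod n → ℤ × ℤ) (k : ℕ) (S : Finset (ℤ × ℤ)) (A : Finset (Sym2 (ℤ × ℤ))) (j : ℕ) :
    Set (ℤ × ℤ) :=
  {s | (s.1 + s.2) % 2 = 1 ∧ ∃ v ∈ Rd p k S A j, om p k A v = false ∧ Cor v s}

/-- The closed read squares. -/
def Kc (p : ZMod n → ℤ × ℤ) (k : ℕ) (S : Finset (ℤ × ℤ)) (A : Finset (Sym2 (ℤ × ℤ))) (j : ℕ) :
    Set (ℤ × ℤ) := {v | v ∈ Rd p k S A j ∧ om p k A v = false}

/-- **The free bank is joined to the free arc by closed read squares.** -/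
theorem free_dk (hp : IsPolygon p) (hS : Encloses p S) (hA : A ⊆ edges S) {j : ℕ} {s : ℤ × ℤ}
    (hs : s ∈ Fr p k S A j) : ∃ j' ≤ j - 1, E2.fc (E2.run p k A j') ∉ S ∧
      ReflTransGen (PStep (Kc p k S A j)) (H192.rf (E2.fc (E2.run p k A j'))) s := by
  obtain ⟨hso, v, hvR, hv, hvs⟩ := hs
  have h1 : v ∈ ec p k S (H192.cfg (A : Set (Sym2 (ℤ × ℤ)))) (j - 1) := by
    refine ⟨hvR, ?_⟩
    rw [← om_rd (k := k) hvR]
    exact hv
  obtain ⟨j', h2, h3, h4⟩ := H161.closed_free (k := k) hp hS _ h1 hso hvs.1 hvs.2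
  rw [H161.As_cfg hA] at h3
  rw [H161.rs_sp, H161.As_cfg hA] at h4
  refine ⟨j', h2, h3, H166.rtg_mono (fun w hw => ?_) h4⟩
  refine ⟨hw.1, ?_⟩
  rw [om_rd (k := k) hw.1]
  exact hw.2

end Vale.Agent.P167.H72.SD
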