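import Vale.Agent.P167.H72.SD.Law

/-!
# P167, general `q`, [Q-SAND]: the sandwich with a bank

`C` a common part of two domains `P` (outside `ζ`) and `D` (outside `η`). If every even site in which
`C` meets a square of `P \ C` or a `ζ`-open square outside of `P` belongs to a set `W` of sites which
are joined by `η`-open squares outside of `D`, then `Ex P ζ F ≤ Ex D η G` as soon as
`F (cf P ζ (T ∪ S)) ≤ G (cf D η S)` for all `T ⊆ P \ C`, `S ⊆ C`.

The statement is used in both directions (inner and outer approximation).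
-/

set_option autoImplicit false

namespace Vale.Agent.P167.H72.SD

open Finset Vale.Agent.P167.FK
open Vale.Agent.P145.FB (PStep)
open Vale.Agent.P167.FKA (Cor cor_pa cor_pb)
open Vale.Agent.P167.H259 (PC_mono cf_mono)

variable {Q : ℝ} {C D P : Finset (ℤ × ℤ)} {η ζ : Cfg} {F G : Cfg → ℝ} {W : Set (ℤ × ℤ)}

/-- The square of a step. -/
def sqr (u v : ℤ × ℤ) : ℤ × ℤ := (min u.1 v.1, min u.2 v.2)

theorem cor_sqr {A : Set (ℤ × ℤ)} {u v : ℤ × ℤ} (h : PStep A u v) :
    Cor (sqr u v) u ∧ Cor (sqr u v) v := by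
  obtain ⟨h1, h2, -⟩ := h
  unfold Cor sqr
  refine ⟨⟨?_, ?_⟩, ?_, ?_⟩ <;> dsimp only <;> omega

theorem even_step {A : Set (ℤ × ℤ)} {u v : ℤ × ℤ} (h : PStep A u v) (hu : Even (u.1 + u.2)) :
    Even (v.1 + v.2) := by
  obtain ⟨h1, h2, -⟩ := h
  rw [Int.even_iff] at hu ⊢
  omega

/-- The bank condition: the even sites in which `C` meets squares of `P \ C` or `ζ`-open squares
outside of `P` belong to `W`. -/
def Bank (C P : Finset (ℤ × ℤ)) (ζ : Cfg) (W : Set (ℤ × ℤ)) : Prop :=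
  ∀ w a v : ℤ × ℤ, Even (w.1 + w.2) → a ∈ C → Cor a w → v ∉ C → (v ∈ P ∨ ζ v = true) → Cor v w →
    w ∈ W

/-- The sites of `W` are joined by `η`-open squares outside of `D`. -/
def Joined (D : Finset (ℤ × ℤ)) (η : Cfg) (W : Set (ℤ × ℤ)) : Prop :=
  ∀ w ∈ W, ∀ w' ∈ W, PC (cf D η ∅) w w'

/-- **Connections of `P` are connections of `D`.** -/
theorem PC_bank (hCP : C ⊆ P) (hCD : C ⊆ D) (hW : Joined D η W) (hB : Bank C P ζ W)
    {T S : Finset (ℤ × ℤ)} (hT : T ⊆ P \ C) {u u' : ℤ × ℤ}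
    (hue : Even (u.1 + u.2)) (hu : ∃ a ∈ C, Cor a u) (hu' : ∃ a ∈ C, Cor a u')
    (h : PC (cf P ζ (T ∪ S)) u u') : PC (cf D η S) u u' := by
  have hJ : ∀ w ∈ W, ∀ w' ∈ W, PC (cf D η S) w w' := fun w hw w' hw' =>
    PC_mono (cf_mono (empty_subset S)) (hW w hw w' hw')
  -- the invariant
  have key : Even (u'.1 + u'.2) ∧ ((PC (cf D η S) u u' ∧ ∃ a ∈ C, Cor a u') ∨
      ∃ w ∈ W, PC (cf D η S) u w ∧ ∃ v, v ∉ C ∧ (v ∈ P ∨ ζ v = true) ∧ Cor v u') := by
    clear hu'
    induction h with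
    | refl => exact ⟨hue, Or.inl ⟨Relation.ReflTransGen.refl, hu⟩⟩
    | @tail x y _ hxy ih =>
      obtain ⟨hxe, ih⟩ := ih
      obtain ⟨hcx, hcy⟩ := cor_sqr hxy
      have hye := even_step hxy hxe
      refine ⟨hye, ?_⟩
      by_cases hsC : sqr x y ∈ C
      · -- a step inside `C`
        have hopen : cf P ζ (T ∪ S) (sqr x y) = true := hxy.2.2
        have hsS : sqr x y ∈ S := by
          simp only [cf, hCP hsC, if_true, decide_eq_true_eq, mem_union] at hopen
          rcases hopen with h1 | h1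
          · exact absurd hsC (mem_sdiff.1 (hT h1)).2
          · exact h1
        have hst : PStep (op (cf D η S)) x y := by
          refine ⟨hxy.1, hxy.2.1, ?_⟩
          show cf D η S (sqr x y) = true
          simp [cf, hCD hsC, hsS]
        rcases ih with ⟨h1, -⟩ | ⟨w, hw, h1, v, hvC, hvP, hvx⟩
        · exact Or.inl ⟨h1.tail hst, _, hsC, hcy⟩
        · have hxW : x ∈ W := hB x _ v hxe hsC hcx hvC hvP hvx
          exact Or.inl ⟨(h1.trans (hJ w hw x hxW)).tail hst, _, hsC, hcy⟩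
      · -- a step outside of `C`
        have hopen : cf P ζ (T ∪ S) (sqr x y) = true := hxy.2.2
        have hP : sqr x y ∈ P ∨ ζ (sqr x y) = true := by
          by_cases hp : sqr x y ∈ P
          · exact Or.inl hp
          · simp only [cf, hp, if_false] at hopen
            exact Or.inr hopen
        rcases ih with ⟨h1, a, ha, hax⟩ | ⟨w, hw, h1, -⟩
        · exact Or.inr ⟨x, hB x a _ hxe ha hax hsC hP hcx, h1, _, hsC, hP, hcy⟩
        · exact Or.inr ⟨w, hw, h1, _, hsC, hP, hcy⟩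
  obtain ⟨hue', h1 | ⟨w, hw, h1, v, hvC, hvP, hvu⟩⟩ := key
  · exact h1.1
  · obtain ⟨a, ha, hau⟩ := hu'
    exact h1.trans (hJ w hw u' (hB u' a v hue' ha hau hvC hvP hvu))

/-- **The sandwich with a bank.** -/
theorem sand_bank (hQ : 1 ≤ Q) (hη : Good η) (hζ : Good ζ) (hCP : C ⊆ P) (hCD : C ⊆ D)
    (hF : IncF F) (hG : IncF G) (hW : Joined D η W) (hB : Bank C P ζ W)
    (hFG : ∀ T, T ⊆ P \ C → ∀ S, S ⊆ C → F (cf P ζ (T ∪ S)) ≤ G (cf D η S)) :
    Ex Q P ζ F ≤ Ex Q D η G := by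
  classical
  have e1 : D \ (D \ C) = C := by
    rw [sdiff_sdiff_right_self]
    exact inf_eq_right.2 hCD
  have h3 : Ex Q C (cf (D \ C) η ∅) G ≤ Ex Q D η G := by
    have h := closed_le_Ex (F := G) hQ hη (sdiff_subset : D \ C ⊆ D) hG
    rwa [e1] at h
  refine le_trans ?_ h3
  have e2 : ∀ S, S ⊆ C → cf C (cf (D \ C) η ∅) S = cf D η S := by
    intro S hS
    funext v
    by_cases hvC : v ∈ C
    · simp [cf, hvC, hCD hvC]
    · have hvS : v ∉ S := fun h => hvC (hS h)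
      by_cases hvD : v ∈ D
      · simp [cf, hvC, hvD, hvS]
      · simp [cf, hvC, hvD]
  have eC : P ∩ C = C := inter_eq_right.2 hCP
  refine sand (Bk := ∅) hQ (f_good.1 _ _ _ hη) hζ (empty_subset _) hF hG
    (fun T hT _ S hS a ha _ hp => ?_) (fun T hT _ S hS => ?_)
  · rw [eC] at hS ha
    rw [e2 S hS]
    exact PC_bank hCP hCD hW hB hT (cor_pa a).2 ⟨a, ha, (cor_pa a).1⟩ ⟨a, ha, (cor_pb a).1⟩ hp
  · rw [eC] at hS
    rw [e2 S hS]
    exact hFG T hT S hS

end Vale.Agent.P167.H72.SD
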