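import Vale.Agent.P167.H72.SD.Lat
import Vale.Agent.P167.H632.Q.SandC
import Vale.Agent.P167.H192.Q.Fresh
import Vale.Agent.P167.QC.Frz

/-!
# P167, general `q`, [SAND-LAT]: the corner conditions

`D'' = dk \ Bad`, `E` a set of squares of `D'' ∩ P` which is closed under common sites.

* `Up` : (`Bad` open) hypotheses for the upper bound of the dual event by the shape `P`;
  `Up.jo`, `Up.oc` are 632's corner conditions;
* `Lo` : (`Bad` closed) the lower bound.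
-/

set_option autoImplicit false

namespace Vale.Agent.P167.H72.SD

open Finset Relation Vale.Agent.P167.FK
open Vale.Agent.P145.FB (PStep)
open Vale.Agent.P167.FKA (Cor)
open Vale.Agent.P167.E6 (IsPolygon Encloses edges wiredOpen face dir)
open Vale.Agent.P167.H718 (Dq)
open Vale.Agent.P167.H161 (Rd)
open Vale.Agent.P167.H632Q.Sand (Tc Ct Jo Oc)

variable {n : ℕ} {p : ZMod n → ℤ × ℤ} {S : Finset (ℤ × ℤ)} {k : ℕ} {A : Finset (Sym2 (ℤ × ℤ))}
  {j : ℕ}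

/-! ### Local geometry -/

/-- Around a site: there are two squares with a common edge at the site, one in `X` and one not. -/
theorem turn {X : Set (ℤ × ℤ)} {s x y : ℤ × ℤ} (hx : x ∈ X) (hy : y ∉ X) (hxs : Cor x s)
    (hys : Cor y s) : ∃ u u' o : ℤ × ℤ, u ∈ X ∧ u' ∉ X ∧ Cor u s ∧ Cor u' s ∧ Cor u o ∧ Cor u' o ∧
      (o.1 + o.2) % 2 = (s.1 + s.2 + 1) % 2 := by
  obtain ⟨s1, s2⟩ := s
  have hc : ∀ v : ℤ × ℤ, Cor v (s1, s2) → v = (s1, s2) ∨ v = (s1 - 1, s2) ∨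
      v = (s1 - 1, s2 - 1) ∨ v = (s1, s2 - 1) := by
    rintro ⟨v1, v2⟩ ⟨h1, h2⟩
    dsimp only at h1 h2
    simp only [Prod.mk.injEq]
    omega
  have ca : Cor (s1, s2) (s1, s2) := ⟨Or.inl rfl, Or.inl rfl⟩
  have cb : Cor (s1 - 1, s2) (s1, s2) := ⟨Or.inr (by dsimp only; ring), Or.inl rfl⟩
  have cc : Cor (s1 - 1, s2 - 1) (s1, s2) :=
    ⟨Or.inr (by dsimp only; ring), Or.inr (by dsimp only; ring)⟩
  have cd : Cor (s1, s2 - 1) (s1, s2) := ⟨Or.inl rfl, Or.inr (by dsimp only; ring)⟩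
  -- the four edges
  have key : ∀ u u' o : ℤ × ℤ, Cor u (s1, s2) → Cor u' (s1, s2) → Cor u o → Cor u' o →
      (o.1 + o.2) % 2 = (s1 + s2 + 1) % 2 → (u ∈ X ↔ u' ∈ X) ∨
      ∃ u u' o : ℤ × ℤ, u ∈ X ∧ u' ∉ X ∧ Cor u (s1, s2) ∧ Cor u' (s1, s2) ∧ Cor u o ∧ Cor u' o ∧
      (o.1 + o.2) % 2 = (s1 + s2 + 1) % 2 := by
    intro u u' o h1 h2 h3 h4 h5
    by_cases h6 : u ∈ X <;> by_cases h7 : u' ∈ X
    · exact Or.inl (iff_of_true h6 h7)
    · exact Or.inr ⟨u, u', o, h6, h7, h1, h2, h3, h4, h5⟩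
    · exact Or.inr ⟨u', u, o, h7, h6, h2, h1, h4, h3, h5⟩
    · exact Or.inl (iff_of_false h6 h7)
  rcases key (s1, s2) (s1 - 1, s2) (s1, s2 + 1) ca cb ⟨Or.inl rfl, Or.inr rfl⟩
    ⟨Or.inr (by dsimp only; ring), Or.inr rfl⟩ (by dsimp only; ring_nf) with h1 | h1
  swap
  · exact h1
  rcases key (s1 - 1, s2) (s1 - 1, s2 - 1) (s1 - 1, s2) cb cc ⟨Or.inl rfl, Or.inl rfl⟩
    ⟨Or.inl rfl, Or.inr (by dsimp only; ring)⟩ (by dsimp only; omega) with h2 | h2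
  swap
  · exact h2
  rcases key (s1 - 1, s2 - 1) (s1, s2 - 1) (s1, s2 - 1) cc cd
    ⟨Or.inr (by dsimp only; ring), Or.inl rfl⟩ ⟨Or.inl rfl, Or.inl rfl⟩
    (by dsimp only; omega) with h3 | h3
  swap
  · exact h3
  exfalso
  have hx' : (s1, s2) ∈ X := by
    rcases hc x hxs with rfl | rfl | rfl | rfl <;> tauto
  have hy' : (s1, s2) ∉ X := by
    rcases hc y hys with rfl | rfl | rfl | rfl <;> tauto
  exact hy' hx'

/-! ### The banks -/

/-- The sites of the left bank. -/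
def LB (p : ZMod n → ℤ × ℤ) (k : ℕ) (A : Finset (Sym2 (ℤ × ℤ))) (j : ℕ) : Set (ℤ × ℤ) :=
  {s | ∃ i ≤ j - 1, ls (H192.me (E2.run p k A i)) = s}

/-- The sites of the right bank. -/
def RB (p : ZMod n → ℤ × ℤ) (k : ℕ) (A : Finset (Sym2 (ℤ × ℤ))) (j : ℕ) : Set (ℤ × ℤ) :=
  {s | ∃ i ≤ j - 1, rs (H192.me (E2.run p k A i)) = s}

theorem nx_run (i : ℕ) : H192.me (E2.run p k A (i + 1)) = nx (om p k A) (H192.me (E2.run p k A i)) := by
  have h1 := QC.run_om (p := p) (k := k) (A := A) i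
  have h2 := QC.run_om (p := p) (k := k) (A := A) (i + 1)
  rw [Function.iterate_succ_apply', h1] at h2
  exact h2.symm

theorem rd_edge (hA : A ⊆ edges S) {y : ℤ × ℤ} (hy : y ∈ Rd p k S A j) : y ∈ Dq S p k ∧
    ∃ i, i + 1 ≤ j - 1 ∧ hdv (H192.me (E2.run p k A i)) = y := by
  obtain ⟨h1, i, hi, h2⟩ := (H161.mem_Rd hA).1 hy
  rw [QG.dq_eq] at h1
  exact ⟨h1, i, hi, by rw [H192.hdv_me]; exact h2⟩

/-- The even corners of the open read squares are on the left bank. -/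
theorem open_LB (hA : A ⊆ edges S) {y s : ℤ × ℤ} (hy : y ∈ Rd p k S A j)
    (ho : om p k A y = true) (hs : (s.1 + s.2) % 2 = 0) (hc : Cor y s) : s ∈ LB p k A j := by
  obtain ⟨-, i, hi, rfl⟩ := rd_edge hA hy
  rcases H161.corners_open (ω := om p k A) ho hs hc.1 hc.2 with h | h
  · exact ⟨i, by omega, h.symm⟩
  · refine ⟨i + 1, hi, ?_⟩
    rw [nx_run, ← h]

/-- The odd corners of the closed read squares are on the right bank. -/
theorem closed_RB (hA : A ⊆ edges S) {y s : ℤ × ℤ} (hy : y ∈ Rd p k S A j)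
    (ho : om p k A y = false) (hs : (s.1 + s.2) % 2 = 1) (hc : Cor y s) : s ∈ RB p k A j := by
  obtain ⟨-, i, hi, rfl⟩ := rd_edge hA hy
  rcases H161.corners_closed (ω := om p k A) ho hs hc.1 hc.2 with h | h
  · exact ⟨i, by omega, h.symm⟩
  · refine ⟨i + 1, hi, ?_⟩
    rw [nx_run, ← h]

theorem mem_dk {v : ℤ × ℤ} : v ∈ dk p k S A j ↔ v ∈ Dq S p k ∧ v ∉ Rd p k S A j := mem_sdiff

theorem even_of {s : ℤ × ℤ} (h : (s.1 + s.2) % 2 = 0) : Even (s.1 + s.2) := Int.even_iff.2 h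

/-- The squares around `s` are not read, not in `Bad`, those of `P` are in `Dq`, those which are open
off `P` and `Dq` for `P` are open for `Dq`, and if `c = true` those of `Dq` off `P` are on the free
side of `P`. -/
structure Com (c : Bool) (p : ZMod n → ℤ × ℤ) (k : ℕ) (S : Finset (ℤ × ℤ))
    (A : Finset (Sym2 (ℤ × ℤ))) (j : ℕ) (Bad P : Finset (ℤ × ℤ)) (ζ : Cfg) (s : ℤ × ℤ) : Prop where
  rd : ∀ y, Cor y s → y ∉ Rd p k S A j
  bad : ∀ y, Cor y s → y ∉ Bad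
  sub : ∀ y, Cor y s → y ∈ P → y ∈ Dq S p k
  out : ∀ y, Cor y s → y ∉ P → y ∉ Dq S p k → ζ y = true → om p k A y = true
  outc : c = true → ∀ y, Cor y s → y ∈ Dq S p k → y ∉ P → ζ y = false

/-- The squares around `s` are not read, not in `Bad`, and those of `P` are in `Dq`. -/
structure ComS (p : ZMod n → ℤ × ℤ) (k : ℕ) (S : Finset (ℤ × ℤ)) (A : Finset (Sym2 (ℤ × ℤ))) (j : ℕ)
    (Bad P : Finset (ℤ × ℤ)) (s : ℤ × ℤ) : Prop where
  rd : ∀ y, Cor y s → y ∉ Rd p k S A j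
  bad : ∀ y, Cor y s → y ∉ Bad
  sub : ∀ y, Cor y s → y ∈ P → y ∈ Dq S p k

/-- The weak form: moreover those which are open off `P` and `Dq` for `P` are open for `Dq`. -/
structure ComW (p : ZMod n → ℤ × ℤ) (k : ℕ) (S : Finset (ℤ × ℤ)) (A : Finset (Sym2 (ℤ × ℤ))) (j : ℕ)
    (Bad P : Finset (ℤ × ℤ)) (ζ : Cfg) (s : ℤ × ℤ) : Prop extends ComS p k S A j Bad P s where
  out : ∀ y, Cor y s → y ∉ P → y ∉ Dq S p k → ζ y = true → om p k A y = true

theorem Com.weak {c : Bool} {Bad P : Finset (ℤ × ℤ)} {ζ : Cfg} {s : ℤ × ℤ}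
    (h : Com c p k S A j Bad P ζ s) : ComW p k S A j Bad P ζ s :=
  ⟨⟨h.rd, h.bad, h.sub⟩, h.out⟩

/-- Primal sites and inner faces. -/
def Inn (S : Finset (ℤ × ℤ)) (s : ℤ × ℤ) : Prop := (s.1 + s.2) % 2 = 0 ∨ H192.rf' s ∈ S

/-- **Upper bound**: `Bad` is open, the free side of `P` is pushed in, the wired side is pushed out. -/
structure Up (p : ZMod n → ℤ × ℤ) (k : ℕ) (S : Finset (ℤ × ℤ)) (A : Finset (Sym2 (ℤ × ℤ))) (j : ℕ)
    (Bad E P : Finset (ℤ × ℤ)) (ζ : Cfg) (W arcP : Set (ℤ × ℤ)) : Prop where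
  bad : Bad ⊆ dk p k S A j
  badj : ∀ v ∈ Bad, ∀ s, (s.1 + s.2) % 2 = 0 → Cor v s → ∃ w ∈ Wr (dk p k S A j) (om p k A),
    ReflTransGen (PStep {v | v ∈ Bad ∨ (v ∉ dk p k S A j ∧ om p k A v = true)}) w s
  sub : E ⊆ dk p k S A j \ Bad
  subP : E ⊆ P
  cl : ∀ x ∈ E, ∀ y ∈ dk p k S A j \ Bad, y ∈ P → ∀ s, Inn S s → Cor x s → Cor y s → y ∈ E
  /-- `E` is closed under common outer faces -/
  bxo : ∀ x ∈ E, ∀ s, (s.1 + s.2) % 2 = 1 → Cor x s → H192.rf' s ∉ S →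
    ∀ y ∈ dk p k S A j \ Bad, y ∈ P → Cor y s → y ∈ E
  /-- no square which has a site in common with `E` touches the right bank -/
  t3 : ∀ x ∈ E, ∀ u ∈ dk p k S A j, ∀ s, Cor x s → Cor u s → ∀ o ∈ RB p k A j, ¬ Cor u o
  /-- the unread squares off `P` touch `E` on the wired side of `P` only in wired sites -/
  t4w : ∀ x ∈ E, ∀ y ∈ dk p k S A j \ Bad, y ∉ P → ζ y = true → ∀ s, (s.1 + s.2) % 2 = 0 →
    Cor x s → Cor y s → s ∈ Wr (dk p k S A j) (om p k A) ∨ ∃ v ∈ Bad, Cor v s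
  /-- and in odd sites only on the target arc -/
  t4 : ∀ x ∈ E, ∀ y ∈ dk p k S A j \ Bad, y ∉ P → ∀ s, (s.1 + s.2) % 2 = 1 → Cor x s → Cor y s →
    s ∈ arcP
  /-- `E` touches the outside of `Dq` in wired sites or in the common part -/
  bx : ∀ x ∈ E, ∀ y, y ∉ Dq S p k → ∀ s, (s.1 + s.2) % 2 = 0 → Cor x s → Cor y s →
    s ∈ Wr (dk p k S A j) (om p k A) ∨ ComW p k S A j Bad P ζ s
  arc : ∀ x ∈ E, ∀ s ∈ W, (s.1 + s.2) % 2 = 1 → Cor x s → s ∈ arcP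

/-- The configuration with open `Bad`. -/
noncomputable abbrev omB (p : ZMod n → ℤ × ℤ) (k : ℕ) (A : Finset (Sym2 (ℤ × ℤ)))
    (Bad : Finset (ℤ × ℤ)) (c : Bool) : Cfg := H192.Q.kill c Bad (om p k A)

variable {Bad E P : Finset (ℤ × ℤ)} {ζ : Cfg} {W arcP : Set (ℤ × ℤ)}

theorem rtg_mono {F F' : Set (ℤ × ℤ)} (h : F ⊆ F') {s t : ℤ × ℤ}
    (h1 : ReflTransGen (PStep F) s t) : ReflTransGen (PStep F') s t :=
  ReflTransGen.mono (fun _ _ hab => ⟨hab.1, hab.2.1, h hab.2.2⟩) _ _ h1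

/-- The wired sites of `D''`. -/
def Ws (p : ZMod n → ℤ × ℤ) (k : ℕ) (S : Finset (ℤ × ℤ)) (A : Finset (Sym2 (ℤ × ℤ))) (j : ℕ)
    (Bad : Finset (ℤ × ℤ)) (s : ℤ × ℤ) : Prop :=
  s ∈ Wr (dk p k S A j) (om p k A) ∨ ((s.1 + s.2) % 2 = 0 ∧ ∃ v ∈ Bad, Cor v s)

theorem Up.joined (h : Up p k S A j Bad E P ζ W arcP) (hp : IsPolygon p) (hk : k < n)
    (hA : A ⊆ edges S) {s t : ℤ × ℤ} (hs : Ws p k S A j Bad s) (ht : Ws p k S A j Bad t) :
    ReflTransGen (PStep (op (omB p k A Bad false) ∩ (↑(dk p k S A j \ Bad) : Set (ℤ × ℤ))ᶜ)) s t := by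
  have hsub : {v | v ∈ Bad ∨ (v ∉ dk p k S A j ∧ om p k A v = true)} ⊆
      (op (omB p k A Bad false) ∩ (↑(dk p k S A j \ Bad) : Set (ℤ × ℤ))ᶜ) := by
    rintro v (hv | ⟨h1, h2⟩)
    · refine ⟨?_, fun h1 => (mem_sdiff.1 (mem_coe.1 h1)).2 hv⟩
      show H192.Q.kill false Bad (om p k A) v = true
      rw [H192.Q.kill_in hv]
      rfl
    · have h3 : v ∉ Bad := fun h4 => h1 (h.bad h4)
      refine ⟨?_, fun h4 => h1 (mem_sdiff.1 (mem_coe.1 h4)).1⟩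
      show H192.Q.kill false Bad (om p k A) v = true
      rw [H192.Q.kill_out h3]
      exact h2
  have key : ∀ s, Ws p k S A j Bad s → ∃ w ∈ Wr (dk p k S A j) (om p k A),
      ReflTransGen (PStep (op (omB p k A Bad false) ∩
        (↑(dk p k S A j \ Bad) : Set (ℤ × ℤ))ᶜ)) w s := by
    rintro s (hs | ⟨h1, v, hv, hvs⟩)
    · exact ⟨s, hs, ReflTransGen.refl⟩
    · obtain ⟨w, hw, h2⟩ := h.badj v hv s h1 hvs
      exact ⟨w, hw, rtg_mono hsub h2⟩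
  obtain ⟨w, hw, h1⟩ := key s hs
  obtain ⟨w', hw', h2⟩ := key t ht
  have h3 := joined_dk hp hk hA j w hw w' hw'
  have h4 : ReflTransGen (PStep (op (omB p k A Bad false) ∩
      (↑(dk p k S A j \ Bad) : Set (ℤ × ℤ))ᶜ)) w w' := by
    refine rtg_mono (fun v hv => hsub (Or.inr ?_)) h3
    have hv' : cf (dk p k S A j) (om p k A) ∅ v = true := hv
    by_cases h5 : v ∈ dk p k S A j
    · simp [cf, h5] at hv'
    · simp only [cf, h5, if_false] at hv'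
      exact ⟨h5, hv'⟩
  exact ((FKA.rtg_symm h1).trans h4).trans h2

/-- Even contact sites with squares off `D''` are wired or in the common part. -/
theorem Up.even (h : Up p k S A j Bad E P ζ W arcP) (hA : A ⊆ edges S) {x y s : ℤ × ℤ}
    (hx : x ∈ E) (hs : (s.1 + s.2) % 2 = 0) (hxs : Cor x s) (hys : Cor y s)
    (hy : y ∉ dk p k S A j \ Bad) : Ws p k S A j Bad s ∨ ComW p k S A j Bad P ζ s := by
  by_cases hyB : y ∈ Bad
  · exact Or.inl (Or.inr ⟨hs, y, hyB, hys⟩)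
  have hyd : y ∉ dk p k S A j := fun h1 => hy (mem_sdiff.2 ⟨h1, hyB⟩)
  have hxd : x ∈ dk p k S A j := (mem_sdiff.1 (h.sub hx)).1
  obtain ⟨u, u', o, hu, hu', hus, hus', huo, huo', ho⟩ :=
    turn (X := (↑(dk p k S A j) : Set (ℤ × ℤ))) (mem_coe.2 hxd)
      (fun h1 => hyd (mem_coe.1 h1)) hxs hys
  rw [mem_coe] at hu hu'
  by_cases hq : u' ∈ Dq S p k
  · have hR : u' ∈ Rd p k S A j := by
      by_contra h1
      exact hu' (mem_dk.2 ⟨hq, h1⟩)
    cases hc : om p k A u' with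
    | true => exact Or.inl (Or.inl ⟨even_of hs, u', hu', hc, hus'⟩)
    | false =>
      exact absurd huo (h.t3 x hx u hu s hxs hus o (closed_RB hA hR hc (by omega) huo'))
  · rcases h.bx x hx u' hq s hs hxs hus' with h1 | h1
    · exact Or.inl (Or.inl h1)
    · exact Or.inr h1

/-- **632's condition on the even corners.** -/
theorem Up.jo (h : Up p k S A j Bad E P ζ W arcP) (hp : IsPolygon p) (hk : k < n)
    (hA : A ⊆ edges S) : Jo E (dk p k S A j \ Bad) P (omB p k A Bad false) ζ := by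
  have key : ∀ s, Ct E P ζ s → Ws p k S A j Bad s := by
    rintro s ⟨hs, ⟨x, hx, hxs⟩, y, hyE, hys, hy⟩
    by_cases hyD : y ∈ dk p k S A j \ Bad
    · have hyP : y ∉ P := fun h1 => hyE (h.cl x hx y hyD h1 s (Or.inl hs) hxs hys)
      rcases hy with h1 | h1
      · exact absurd h1 hyP
      · rcases h.t4w x hx y hyD hyP h1 s hs hxs hys with h2 | h2
        · exact Or.inl h2
        · exact Or.inr ⟨hs, h2⟩
    · rcases h.even hA hx hs hxs hys hyD with h1 | h1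
      · exact h1
      · have hyd : y ∉ Dq S p k := fun h2 =>
          hyD (mem_sdiff.2 ⟨mem_dk.2 ⟨h2, h1.rd y hys⟩, h1.bad y hys⟩)
        have hyP : y ∉ P := fun h2 => hyd (h1.sub y hys h2)
        rcases hy with h2 | h2
        · exact absurd h2 hyP
        · exact Or.inl ⟨even_of hs, y, fun h3 => hyd (mem_dk.1 h3).1, h1.out y hys hyP hyd h2, hys⟩
  intro s t hs ht
  exact h.joined hp hk hA (key s hs) (key t ht)

/-- The target of the dual paths of `D''`: the target arc and the odd corners of the closed read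
squares. -/
def WD (p : ZMod n → ℤ × ℤ) (k : ℕ) (S : Finset (ℤ × ℤ)) (A : Finset (Sym2 (ℤ × ℤ))) (j : ℕ)
    (W : Set (ℤ × ℤ)) : Set (ℤ × ℤ) := W ∪ Fr p k S A j

/-- **632's condition on the odd corners.** -/
theorem Up.oc (h : Up p k S A j Bad E P ζ W arcP) (hA : A ⊆ edges S) :
    Oc E (dk p k S A j \ Bad) (WD p k S A j W) arcP where
  off := by
    rintro s hs ⟨x, hx, hxs⟩ y hyD hyE hys
    refine h.t4 x hx y hyD (fun h1 => hyE ?_) s hs hxs hys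
    by_cases hS : H192.rf' s ∈ S
    · exact h.cl x hx y hyD h1 s (Or.inr hS) hxs hys
    · exact h.bxo x hx s hs hxs hS y hyD h1 hys
  arc := by
    rintro s (hsW | ⟨-, v, hv, hvc, hvs⟩) hs ⟨x, hx, hxs⟩
    · exact h.arc x hx s hsW hs hxs
    · have hxd : x ∈ dk p k S A j := (mem_sdiff.1 (h.sub hx)).1
      exact absurd hxs (h.t3 x hx x hxd s hxs hxs s (closed_RB hA hv hvc hs hvs))

end Vale.Agent.P167.H72.SD
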