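import Vale.Agent.P167.H72.SD.CmpLo
import Vale.Agent.P167.H918.KLit
import Vale.Agent.P167.BR.Flat

/-!
# P167, general `q`, continuity, [CMP]: the target arc

`Wf p S ic` : the exterior faces around the vertices `p 0, …, p ic` (`p ic` is the vertex at `c`);
`Ff` : the primal sites near the flat side from `c` to `b` and in a rectangle. `fsd_of` : the structure
`Fsd` from 918's `Loc`.
-/

set_option autoImplicit false

namespace Vale.Agent.P167.H72.SD

open Finset Relation Vale.Agent.P167 Vale.Agent.P167.FK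
open Vale.Agent.P145.FB (PStep)
open Vale.Agent.P167.FKA (Cor)
open Vale.Agent.P167.E6 (IsPolygon Encloses edges wiredOpen face dir)
open Vale.Agent.P167.H718 (Dq)
open Vale.Agent.P167.BR (sites hbox)
open Vale.Agent.P167.H918 (Loc)

variable {n : ℕ} {p : ZMod n → ℤ × ℤ} {S : Finset (ℤ × ℤ)} {k : ℕ} {A : Finset (Sym2 (ℤ × ℤ))}
  {j : ℕ}

/-- The exterior faces around the vertices `p 0, …, p ic`. -/
def Wf (p : ZMod n → ℤ × ℤ) (S : Finset (ℤ × ℤ)) (ic : ℕ) : Set (ℤ × ℤ) :=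
  {s | ∃ (i : ℕ) (r : Fin 4), i ≤ ic ∧ face (p (i : ZMod n)) r ∉ S ∧
    H192.rf (face (p (i : ZMod n)) r) = s}

/-- The primal sites near the flat side and in a rectangle. -/
def Ff (bb : ℤ × ℤ) (mc : ℕ) (a b c d : ℤ) : Set (ℤ × ℤ) :=
  {s | (s.1 + s.2) % 2 = 0 ∧ ((bb.1 - mc - 2 ≤ s.1 ∧ s.1 ≤ bb.1 + 2 ∧ bb.2 - 2 ≤ s.2 ∧
    s.2 ≤ bb.2 + 2) ∨ Rect a b c d s)}

theorem wf_odd {ic : ℕ} {s : ℤ × ℤ} (h : s ∈ Wf p S ic) : (s.1 + s.2) % 2 = 1 := by
  obtain ⟨i, r, -, -, rfl⟩ := h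
  have h1 := H192.odd_rf (face (p (i : ZMod n)) r)
  rw [Int.even_iff] at h1
  omega

/-- The boundary edge of an outer face. -/
theorem out_edge (hp : IsPolygon p) (hS : Encloses p S) {s x y : ℤ × ℤ}
    (hs : (s.1 + s.2) % 2 = 1) (hx : x ∈ Dq S p k) (hxs : Cor x s) (hy : y ∉ Dq S p k)
    (hyc : om p k A y = false) (hys : Cor y s) : ∃ i : ZMod n,
      H192.ed x = s(p i, p (i + 1)) ∧ (i.val < k ∨ i.val + 1 = n) ∧
      ∃ r : Fin 4, face (p (i + 1)) r ∉ S ∧ H192.rf (face (p (i + 1)) r) = s := by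
  have hn : NeZero n := ⟨by have := hp.1; omega⟩
  obtain ⟨u, r, h1, h2⟩ := side hs hxs
  obtain ⟨u', r', h1', h2'⟩ := side hs hys
  have hf : face u r = face u' r' := H192.rf_inj (h2.symm.trans h2')
  have hyE : H192.ed y ∉ edges S := by
    intro h
    refine hy ((H718.mem_Dq').2 ⟨h, fun h3 => ?_⟩)
    obtain ⟨i, h4, h5, h6⟩ := H718.mem_wE.1 h3
    have h7 : om p k A y = true := om_true.2 (Or.inr ⟨i, h4, h5, h6⟩)
    rw [hyc] at h7
    exact Bool.noConfusion h7
  have hfS : face u r ∉ S := by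
    intro h
    rw [h1', E2.mem_edges, ← hf] at hyE
    exact hyE (Or.inl h)
  have hxD := (H718.mem_Dq').1 hx
  have hxE := hxD.1
  rw [h1, E2.mem_edges] at hxE
  have h3 : face u (r - 1) ∈ S := by
    rcases hxE with h3 | h3
    · exact absurd h3 hfS
    · exact h3
  -- the polygon goes from `u + dir r` to `u`
  obtain ⟨e1, e2⟩ := H918.face_opp u r
  obtain ⟨i, h4, h5⟩ := (hS (u + dir r) (r + 2)).2 ⟨by rw [e1]; exact h3, by rw [e2]; exact hfS⟩
  rw [H918.dir_opp] at h5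
  have hed : H192.ed x = s(p i, p (i + 1)) := by rw [h1, h4, h5, Sym2.eq_swap]
  refine ⟨i, hed, ?_, r, ?_, ?_⟩
  · by_contra h6
    push Not at h6
    refine hxD.2 (H718.mem_wE.2 ⟨i.val, h6.1, ?_, ?_⟩)
    · have := ZMod.val_lt i
      omega
    · rw [ZMod.natCast_zmod_val]
      exact hed
  · rw [h5]
    exact hfS
  · rw [h5, h2]

/-- **The structure `Fsd` for the flat side.** `v₀` on the flat side, `Z` near `v₀`. -/
theorem fsd_of {M : ℕ} {R : ℤ} (H : Loc p S k M R) (hA : A ⊆ edges S) {Z : Finset (ℤ × ℤ)}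
    {v₀ : ℤ × ℤ} {r ρ : ℤ} {mc : ℕ} (hmc : mc ≤ M) (hr : 0 ≤ r) (hρ : r + 1 ≤ ρ)
    (hZ : Z ⊆ hbox v₀ r) (h2 : v₀.2 = (H192.ro (p k)).2) (hv : Even (v₀.1 + v₀.2))
    (h1 : v₀.1 + 2 ≤ (H192.ro (p k)).1) (h1' : (H192.ro (p k)).1 ≤ v₀.1 + R - 3) (hR : 3 ≤ R) :
    Fsd p k S A Z (Wf p S (k - mc))
      (Ff (H192.ro (p k)) mc (v₀.1 - ρ) (v₀.1 + ρ) (v₀.2 - ρ) (v₀.2 + ρ))
      (v₀.1 - ρ) (v₀.1 + ρ) (v₀.2 - ρ) (v₀.2 + ρ) where
  rect := fun s hs h => ⟨hs, Or.inr h⟩
  sub := by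
    intro s hs
    obtain ⟨v, hv, hvs⟩ := mem_sites'.1 hs
    obtain ⟨a1, a2, a3, a4⟩ := BR.mem_hbox.1 (hZ hv)
    obtain ⟨a5, a6⟩ := hvs
    refine ⟨?_, ?_, ?_, ?_⟩ <;> omega
  out := by
    rw [Int.even_iff] at hv
    refine ⟨(v₀.1 + 1, v₀.2), ⟨by dsimp only; omega, by dsimp only; omega, by dsimp only; omega,
      by dsimp only; omega⟩, ?_⟩
    have hx : |v₀.1 + 1 - (H192.ro (p k)).1| + 1 ≤ R := by
      rw [← le_sub_iff_add_le, abs_le]
      constructor <;> omega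
    refine free_out (x := (v₀.1 + 1, v₀.2)) (y := (v₀.1 + 1, v₀.2 - 1)) H.poly H.enc hA
      (by dsimp only; omega) ?_ ⟨Or.inl rfl, Or.inl rfl⟩ ?_ ?_ ⟨Or.inl rfl, Or.inr (by dsimp only; ring)⟩
    · rw [H.mem_Dq_iff hx (by rw [h2, sub_self, abs_zero]; omega), h2]
    · rw [H.mem_Dq_iff hx (by
        rw [h2, show (H192.ro (p k)).2 - 1 - (H192.ro (p k)).2 = -1 by ring]
        norm_num
        omega), h2]
      omega
    · show H192.cfg (wiredOpen p k A) _ = false
      rw [← Bool.not_eq_true]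
      intro h3
      have h4 := (H.cfg_iff hx (by
        rw [h2, show (H192.ro (p k)).2 - 1 - (H192.ro (p k)).2 = -1 by ring]
        norm_num
        omega) (by rw [h2]; omega) hA).1 h3
      omega
  tgt := by
    rintro t ⟨i, r, -, h3, rfl⟩
    exact out_face H.poly H.enc hA h3
  esc := by
    intro u v s hu hs ⟨x, hx, hxu⟩ hv1 hv2 hvu hvs _ hsF
    have := H.neZero
    obtain ⟨i, h3, h4, r, h5, h6⟩ := out_edge H.poly H.enc hu hx hxu hv1 hv2 hvu
    rcases h4 with h4 | h4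
    · by_cases h7 : i.val + 1 ≤ k - mc
      · refine ⟨i.val + 1, r, h7, ?_, ?_⟩
        · push_cast
          rw [ZMod.natCast_zmod_val]
          exact h5
        · push_cast
          rw [ZMod.natCast_zmod_val]
          exact h6
      · -- near the flat side
        exfalso
        obtain ⟨m, hm⟩ : ∃ m : ℕ, k = i.val + m + 1 := ⟨k - i.val - 1, by omega⟩
        have hmM : m ≤ M := by have := H.hk1; omega
        have e1 : i = (k : ZMod n) - m - 1 := by
          have e2 : ((i.val + m + 1 : ℕ) : ZMod n) = (k : ZMod n) := by rw [← hm]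
          push_cast at e2
          rw [ZMod.natCast_zmod_val] at e2
          rw [← e2]
          ring
        have e2 : i + 1 = (k : ZMod n) - m := by rw [e1]; ring
        have h8 := H.sq_bw hmM
        rw [← e1, ← e2, ← h3, H192.sq_ed] at h8
        have h9 : m < mc := by omega
        refine hsF ⟨hs, Or.inl ?_⟩
        rw [h8] at hxu
        obtain ⟨c1, c2⟩ := hxu
        obtain ⟨c3, c4⟩ := hvu
        obtain ⟨c5, c6⟩ := hvs
        dsimp only at c1 c2
        refine ⟨?_, ?_, ?_, ?_⟩ <;> omega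
    · refine ⟨0, r, Nat.zero_le _, ?_, ?_⟩
      · have e1 : i + 1 = ((0 : ℕ) : ZMod n) := by
          have e2 : ((i.val + 1 : ℕ) : ZMod n) = 0 := by rw [h4]; exact ZMod.natCast_self n
          push_cast at e2 ⊢
          rw [ZMod.natCast_zmod_val] at e2
          exact e2
        rw [← e1]
        exact h5
      · have e1 : i + 1 = ((0 : ℕ) : ZMod n) := by
          have e2 : ((i.val + 1 : ℕ) : ZMod n) = 0 := by rw [h4]; exact ZMod.natCast_self n
          push_cast at e2 ⊢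
          rw [ZMod.natCast_zmod_val] at e2
          exact e2
        rw [← e1]
        exact h6

/-- The outer faces which the interface has met, if it has not met the flat side. -/
theorem wf_met (hp : IsPolygon p) (hS : Encloses p S) (h0 : 0 < k) (hk : k < n) (hA : A ⊆ edges S)
    {ic i : ℕ} (hi : i < E2.len p k A) (hfar : ∀ l : ℕ, ic < l → l < k → (E2.run p k A i).1 ≠ p l)
    (h : E2.fc (E2.run p k A i) ∉ S) : H192.rf (E2.fc (E2.run p k A i)) ∈ Wf p S ic := by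
  have h1 := H161.out_free (S := S) hp hS h0 hk (H192.cfg (A : Set (Sym2 (ℤ × ℤ)))) (j := i)
    (by rw [H161.As_cfg hA]; exact hi) (by rw [H161.As_cfg hA]; exact h)
  rw [H161.As_cfg hA] at h1
  rcases h1 with h1 | ⟨l, h1, h2⟩
  · -- the start
    have hn : NeZero n := ⟨by omega⟩
    have e1 : face (p ((0 : ℕ) : ZMod n)) (E2.ri p ((0 : ℕ) : ZMod n)) = E2.fc (E2.run p k A i) := by
      rw [h1]
      have e2 : ((0 : ℕ) : ZMod n) = (-1 : ZMod n) + 1 := by push_cast; ring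
      have e3 : p ((-1 : ZMod n) + 1) = p (-1) + dir (E2.ro p (-1)) := E2.ro_spec hp (-1)
      rw [e2, e3, E2.ri, add_sub_cancel_right, E2.face_right]
      rfl
    refine ⟨0, E2.ri p ((0 : ℕ) : ZMod n), Nat.zero_le _, ?_, ?_⟩
    · rw [e1]
      exact h
    · rw [e1]
  · have h3 : l ≤ ic := by
      by_contra h4
      exact hfar l (by omega) h1 h2
    refine ⟨l, (E2.run p k A i).2, h3, ?_, ?_⟩
    · rw [← h2]
      exact h
    · rw [← h2]
      rfl

end Vale.Agent.P167.H72.SD
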