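import Vale.Agent.P167.H72.SD.Wj
import Vale.Agent.P167.H72.SD.Wf
import Vale.Agent.P167.H446.G.Flat

/-!
# P167, general `q`, [SAND-GEO]: the shape `Sh4` as the outside of `Lo`

For `P := dom N v₀ P`, `ζ := ext N v₀ P`, `arcP := arcc N v₀ P` and `WP := Wr (dom ..) (ext ..)`:
* `dom_joined` : the wired sites are joined outside of the shape;
* `lo_cow`, `arcc_bd` : the fields `cow`, `arcb` of `Lo`;
-/

set_option autoImplicit false

namespace Vale.Agent.P167.H72.SD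

open Finset Relation Vale.Agent.P167 Vale.Agent.P167.FK
open Vale.Agent.P145.FB (PStep)
open Vale.Agent.P167.FKA (Cor)
open Vale.Agent.P167.E6 (IsPolygon Encloses dir face)
open Vale.Agent.P167.H718 (OutC etaW mem_opW Chordless)
open Vale.Agent.P167.H825 (enl)
open Vale.Agent.P167.QT (Sh4 dom ext arcc rot)
open Vale.Agent.P167.Enl (PN qN qN_nat)

variable {P : Sh4} {N : ℕ} {v₀ : ℤ × ℤ}

/-! ### Generalities -/

theorem rot_poly (hp : IsPolygon P.q) : IsPolygon (rot P) := by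
  refine ⟨hp.1, fun x y hxy => ?_, fun i => ?_⟩
  · have := hp.2.1 hxy
    exact add_right_cancel this
  · obtain ⟨r, hr⟩ := hp.2.2 (i + P.k)
    refine ⟨r, ?_⟩
    unfold rot
    rw [← hr]
    congr 1
    ring

theorem rot_encl (hD : Encloses P.q P.S) : Encloses (rot P) P.S := by
  intro v r
  rw [← hD v r]
  unfold rot
  constructor
  · rintro ⟨i, h1, h2⟩
    exact ⟨i + P.k, h1, by rw [← h2]; congr 1; ring⟩
  · rintro ⟨i, h1, h2⟩
    refine ⟨i - P.k, ?_, ?_⟩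
    · rw [← h1]; congr 1; ring
    · rw [← h2]; congr 1; ring

theorem mem_dom' {v : ℤ × ℤ} : v ∈ dom N v₀ P ↔ v - v₀ ∈ enl P.S N := by
  unfold dom
  rw [Finset.mem_image]
  constructor
  · rintro ⟨w, hw, rfl⟩
    rwa [add_sub_cancel_right]
  · exact fun h => ⟨v - v₀, h, sub_add_cancel v v₀⟩

theorem mem_dom_add {v : ℤ × ℤ} : v + v₀ ∈ dom N v₀ P ↔ v ∈ enl P.S N := by
  rw [mem_dom', add_sub_cancel_right]

theorem ext_add {v : ℤ × ℤ} : ext N v₀ P (v + v₀) =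
    etaW (enl P.S N) (qN (rot P) N (N / 2)) ((P.m - P.k) * N) v := by
  unfold QT.ext
  rw [add_sub_cancel_right]

theorem cor_add {v s a : ℤ × ℤ} : Cor (v + a) (s + a) ↔ Cor v s := by
  unfold Cor
  simp only [Prod.fst_add, Prod.snd_add]
  constructor <;> rintro ⟨h1, h2⟩ <;> constructor <;> omega

theorem cor_face (v : ℤ × ℤ) (r : Fin 4) : Cor (face v r) v := by
  fin_cases r <;> simp [face, Cor]

theorem cor_face_dir (v : ℤ × ℤ) (r : Fin 4) : Cor (face v r) (v + dir r) := by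
  fin_cases r <;> simp [face, dir, Cor]

theorem cor_face_dir' (v : ℤ × ℤ) (r : Fin 4) : Cor (face v (r - 1)) (v + dir r) := by
  have h0 : (0 : Fin 4) - 1 = 3 := rfl
  have h1 : (1 : Fin 4) - 1 = 0 := rfl
  have h2 : (2 : Fin 4) - 1 = 1 := rfl
  have h3 : (3 : Fin 4) - 1 = 2 := rfl
  have hr : r = 0 ∨ r = 1 ∨ r = 2 ∨ r = 3 := by fin_cases r <;> simp
  rcases hr with rfl | rfl | rfl | rfl
  · rw [h0]; simp [face, dir, Cor]
  · rw [h1]; simp [face, dir, Cor]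
  · rw [h2]; simp [face, dir, Cor]
  · rw [h3]; simp [face, dir, Cor]

theorem even_add {s a : ℤ × ℤ} (ha : Even (a.1 + a.2)) :
    Even ((s + a).1 + (s + a).2) ↔ Even (s.1 + s.2) := by
  rw [Int.even_iff] at *
  simp only [Prod.fst_add, Prod.snd_add]
  rw [Int.even_iff]
  omega

theorem steps_add {a : ℤ × ℤ} {F F' : Set (ℤ × ℤ)} (hF : ∀ z, z + a ∈ F' ↔ z ∈ F) {u v : ℤ × ℤ}
    (h : ReflTransGen (PStep F) u v) : ReflTransGen (PStep F') (u + a) (v + a) := by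
  induction h with
  | refl => exact ReflTransGen.refl
  | @tail b c _ h ih =>
    refine ih.tail ?_
    obtain ⟨h1, h2, h3⟩ := h
    have e : (min (b + a).1 (c + a).1, min (b + a).2 (c + a).2) =
        (min b.1 c.1, min b.2 c.2) + a := by
      apply Prod.ext
      · simp only [Prod.fst_add]; rw [min_add_add_right]
      · simp only [Prod.snd_add]; rw [min_add_add_right]
    refine ⟨?_, ?_, ?_⟩
    · simp only [Prod.fst_add]
      omega
    · simp only [Prod.snd_add]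
      omega
    · rw [e, hF]
      exact h3

/-! ### The wired sites are joined -/

theorem dom_joined (hq : IsPolygon P.q) (hE : Encloses P.q P.S) (hN : 2 ≤ N)
    (hv : Even (v₀.1 + v₀.2)) {s t : ℤ × ℤ} (hs : s ∈ Wr (dom N v₀ P) (ext N v₀ P))
    (ht : t ∈ Wr (dom N v₀ P) (ext N v₀ P)) :
    ReflTransGen (PStep (op (ext N v₀ P) ∩ (↑(dom N v₀ P) : Set (ℤ × ℤ))ᶜ)) s t := by
  have key : ∀ s : ℤ × ℤ, s ∈ Wr (dom N v₀ P) (ext N v₀ P) → Even ((s - v₀).1 + (s - v₀).2) ∧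
      ∃ v, v ∉ enl P.S N ∧ etaW (enl P.S N) (qN (rot P) N (N / 2)) ((P.m - P.k) * N) v = true ∧
      ((s - v₀).1 = v.1 ∨ (s - v₀).1 = v.1 + 1) ∧ ((s - v₀).2 = v.2 ∨ (s - v₀).2 = v.2 + 1) := by
    rintro s ⟨h1, v, h2, h3, h4, h5⟩
    refine ⟨?_, v - v₀, fun h => h2 (mem_dom'.2 h), h3, ?_, ?_⟩
    · rw [← sub_add_cancel s v₀, even_add hv] at h1
      exact h1
    · simp only [Prod.fst_sub]
      omega
    · simp only [Prod.snd_sub]
      omega
  obtain ⟨a1, a2⟩ := key s hs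
  obtain ⟨b1, b2⟩ := key t ht
  have h := wired_join (k := (P.m - P.k) * N) (Enl.isPolygon_qN (n := N) (by omega) (rot_poly hq) (N / 2))
    (Enl.encloses_qN (n := N) (by omega) (rot_poly hq) (rot_encl hE) (N / 2))
    (H825.Q.chordless_qN (rot_poly hq) hN (N / 2)) a1 b1 a2 b2
  unfold OutC at h
  have h2 := steps_add (a := v₀) (F' := op (ext N v₀ P) ∩ (↑(dom N v₀ P) : Set (ℤ × ℤ))ᶜ)
    (fun z => ?_) h
  · rwa [sub_add_cancel, sub_add_cancel] at h2
  · constructor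
    · rintro ⟨h3, h4⟩
      refine ⟨?_, fun h5 => h4 (mem_coe.2 (mem_dom_add.2 (mem_coe.1 h5)))⟩
      have : ext N v₀ P (z + v₀) = true := h3
      rw [ext_add] at this
      exact this
    · rintro ⟨h3, h4⟩
      refine ⟨?_, fun h5 => h4 (mem_coe.2 (mem_dom_add.1 (mem_coe.1 h5)))⟩
      show ext N v₀ P (z + v₀) = true
      rw [ext_add]
      exact h3

/-- The sites of the target arc are on the boundary of the shape. -/
theorem arcc_bd (hq : IsPolygon P.q) (hE : Encloses P.q P.S) (hN : 0 < N) {s : ℤ × ℤ}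
    (hs : s ∈ arcc N v₀ P) : ∃ y, y ∉ dom N v₀ P ∧ Cor y s := by
  obtain ⟨i, -, -, rfl⟩ := hs
  have hm := hq.1
  have : NeZero P.m := ⟨by omega⟩
  have h := (E2.enc_in (Enl.isPolygon_qN hN hq 0) (Enl.encloses_qN hN hq hE 0)
    (i := (i : ZMod (P.m * N)))).1
  rw [qN_nat hN, add_zero] at h
  exact ⟨_, fun h1 => h (mem_dom_add.1 h1), cor_add.2 (cor_face _ _)⟩

/-- The field `cow` of `Lo`. -/
theorem lo_cow {Q : Finset (ℤ × ℤ)} {ζ : Cfg} {s y : ℤ × ℤ} (hs : (s.1 + s.2) % 2 = 0)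
    (hy : y ∉ Q) (hys : Cor y s) (ho : ζ y = true) : s ∈ Wr Q ζ :=
  ⟨even_of hs, y, hy, ho, hys⟩

end Vale.Agent.P167.H72.SD
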