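import Vale.Agent.P167.H72.SD.Wf
import Vale.Agent.P167.H446.G.Comb
import Vale.Agent.P167.H918.FlsP

/-!
# P167, general `q`, [SAND-GEO]: the field `met` of `Lo`

Before the exit the interface is far from the target, so that the exterior faces which it has met are
in `Wf p S ic`, if `p ic` is near the target.
-/

set_option autoImplicit false

open Filter Topology Set Metric

namespace Vale.Agent.P167.H72.SD

open Vale.Agent.P153.R2
open Vale.Agent.P153.R2.DET (HC)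
open Vale.Agent.P167 Vale.Agent.P167.E6 Vale.Agent.P167.E2 Vale.Agent.P167.H411

section

variable {Φ : (ℝ × ℝ) ≃ₜ (ℝ × ℝ)} {ψ : ℂ → ℂ} {δ : ℕ → ℝ} {N k : ℕ → ℕ}
  {p : ∀ n, ZMod (N n) → ℤ × ℤ} {S : ℕ → Finset (ℤ × ℤ)} {ψn : ℕ → ℂ → ℂ}

/-- The positions of the interface before the exit are far from the target. -/
theorem far_run (H : Set6 Φ ψ δ N k p S ψn) {T R : ℝ} (hT : 0 ≤ T) (hR : 0 ≤ R) :
    ∃ ρ : ℝ, 0 < ρ ∧ ∀ᶠ n in atTop, ∀ A ∈ (exn δ N k p S ψn n).C,
      ∀ j < (exn δ N k p S ψn n).K A,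
      (∀ i < j, (exn δ N k p S ψn n).c A i ≤ T ∧ |(exn δ N k p S ψn n).V A i| ≤ R) →
      ∀ i < j, ρ ≤ δ n * dist (pt (run (p n) (k n) A i).1) (pt (p n (k n))) := by
  obtain ⟨ρ, hρ, h⟩ := H469.sep_n H (H469.radF_pos hT hR)
  refine ⟨ρ / 2, by positivity, ?_⟩
  filter_upwards [h, H469.path_in H hT hR,
    (Metric.tendsto_nhds.1 H.appr.2.1) (ρ / 8) (by positivity)] with n h1 h2 hδ A hA j hj hb i hi
  obtain ⟨hd, -⟩ := H.appr.1 n
  rw [dist_zero_right, Real.norm_of_nonneg hd.le] at hδ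
  have h7 := H825.G.dist_bM (p n) (k n) hd.le
  have hpl : ∀ t ∈ Icc (0 : ℝ) j,
      ρ - δ n ≤ dist (pl (p n) (k n) (δ n) A t) ((δ n : ℂ) * pt (p n (k n))) := by
    intro t ht
    obtain ⟨z, hz, hzC, hzt⟩ := h2 A hA j hj hb t ht
    have h3 := (h1 z hz hzC).1
    rw [hzt] at h3
    have h4 := dist_triangle (pl (p n) (k n) (δ n) A t) ((δ n : ℂ) * pt (p n (k n)))
      (bM (p n) (k n) (δ n))
    linarith
  have hK' : j < nu (p n) (k n) A := hj
  unfold nu at hK'
  have h1 := hpl ((i + 1 : ℕ) : ℝ) ⟨Nat.cast_nonneg _, by exact_mod_cast (by omega : i + 1 ≤ j)⟩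
  have h2 : pl (p n) (k n) (δ n) A ((i + 1 : ℕ) : ℝ) =
      (δ n : ℂ) * cpt (1 / 4) (run (p n) (k n) A i) := by
    unfold pl
    rw [lin_nat, xv_mid (by omega)]
  rw [h2, dist_eq_norm, ← mul_sub, norm_mul, Complex.norm_real, Real.norm_of_nonneg hd.le,
    ← dist_eq_norm] at h1
  have h3 := H825.G.dist_cpt (1 / 4) (by norm_num) (run (p n) (k n) A i)
  have h4 := dist_triangle (cpt (1 / 4) (run (p n) (k n) A i))
    (pt (run (p n) (k n) A i).1) (pt (p n (k n)))
  nlinarith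

/-- The distance of two vertices of the polygon. -/
theorem dist_idx {m : ℕ} {q : ZMod m → ℤ × ℤ} (hq : IsPolygon q) {a : ℕ} (b : ℕ) :
    dist (pt (q (a : ZMod m))) (pt (q ((a + b : ℕ) : ZMod m))) ≤ b := by
  induction b with
  | zero => simp
  | succ b ih =>
    obtain ⟨r, hr⟩ := hq.2.2 ((a + b : ℕ) : ZMod m)
    have h1 : dist (pt (q ((a + b : ℕ) : ZMod m))) (pt (q ((a + (b + 1) : ℕ) : ZMod m))) ≤ 1 := by
      have e : ((a + (b + 1) : ℕ) : ZMod m) = ((a + b : ℕ) : ZMod m) + 1 := by push_cast; ring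
      rw [e, hr]
      have h2 := H825.G.dist_pt_le (q ((a + b : ℕ) : ZMod m)) (q ((a + b : ℕ) : ZMod m) + dir r)
      refine h2.trans ?_
      have h3 : nm (H192.ro (q ((a + b : ℕ) : ZMod m)) - H192.ro (q ((a + b : ℕ) : ZMod m) + dir r)) ≤
          1 := by
        unfold nm H192.ro
        fin_cases r <;> simp [dir]
      exact_mod_cast h3
    have h2 := dist_triangle (pt (q (a : ZMod m))) (pt (q ((a + b : ℕ) : ZMod m)))
      (pt (q ((a + (b + 1) : ℕ) : ZMod m)))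
    push_cast at *
    linarith

/-- **The field `met` of `Lo`.** -/
theorem lo_met (H : Set6 Φ ψ δ N k p S ψn) {T R : ℝ} (hT : 0 ≤ T) (hR : 0 ≤ R) :
    ∃ ρ : ℝ, 0 < ρ ∧ ∀ᶠ n in atTop, ∀ A j, H446.G.Bef (exn δ N k p S ψn n) T R A j →
      ∀ ic : ℕ, ((k n : ℝ) - ic) * δ n < ρ → ∀ i ≤ j - 1,
        fc (run (p n) (k n) A i) ∉ S n →
          H192.rf (fc (run (p n) (k n) A i)) ∈ Wf (p n) (S n) ic := by
  obtain ⟨ρ, hρ, h⟩ := far_run H hT hR
  refine ⟨ρ, hρ, ?_⟩
  filter_upwards [h] with n h A j hb ic hic i hi hf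
  obtain ⟨hA, hj, hb⟩ := hb
  obtain ⟨hd, hk0, hkN, hp, hS⟩ := H.appr.1 n
  have hA' : A ⊆ edges (S n) := (mem_Qc (p := p n) (k := k n) (δ := δ n)).1 hA
  have hK' : j < nu (p n) (k n) A := hj
  unfold nu at hK'
  have hlp := len_pos hp hS hkN hA'
  have hne : NeZero (N n) := ⟨by omega⟩
  have hlen : i < len (p n) (k n) A := by
    by_contra hcon
    have h1 : i = len (p n) (k n) A := by omega
    have h2 := h A hA j hj hb i (by omega)
    rw [h1, run_len hp hS hkN hA'] at h2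
    unfold ce at h2
    simp only [dist_self, mul_zero] at h2
    linarith
  refine wf_met hp hS hk0 hkN hA' hlen ?_ hf
  intro l hl1 hl2 he
  rcases Nat.eq_zero_or_pos i with h0 | h0
  · subst h0
    rw [run_zero] at he
    unfold cs at he
    have h1 : ((N n - 1 : ℕ) : ZMod (N n)) = (-1 : ZMod (N n)) := by
      rw [Nat.cast_sub (by omega)]
      simp
    have h2 := hp.2.1 he
    rw [← h1, ZMod.natCast_eq_natCast_iff', Nat.mod_eq_of_lt (by omega),
      Nat.mod_eq_of_lt (by omega)] at h2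
    omega
  · have h2 := h A hA j hj hb i (by omega)
    rw [he] at h2
    have h3 := dist_idx hp (a := l) (k n - l)
    rw [show l + (k n - l) = k n by omega] at h3
    rw [Nat.cast_sub (by omega)] at h3
    have h4 : ((ic : ℝ)) < l := by exact_mod_cast hl1
    nlinarith

end

end Vale.Agent.P167.H72.SD
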