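import Vale.Agent.P167.H72.SD.Lat2

/-!
# P167, general `q`, [SAND-LAT]: the lower bound

`Lo` : (`Bad` closed) hypotheses for the lower bound of the dual event by the shape `P`: the wired side
of `P` is pushed in, the free side is pushed out. `Lo.jo`, `Lo.oc` are 632's corner conditions.
-/

set_option autoImplicit false

namespace Vale.Agent.P167.H72.SD

open Finset Relation Vale.Agent.P167.FK
open Vale.Agent.P145.FB (PStep)
open Vale.Agent.P167.FKA (Cor)
open Vale.Agent.P167.E6 (IsPolygon Encloses edges wiredOpen face dir)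
open Vale.Agent.P167.H718 (Dq)
open Vale.Agent.P167.H161 (Rd)
open Vale.Agent.P167.H632Q.Sand (Tc Ct Jo Oc)

variable {n : ℕ} {p : ZMod n → ℤ × ℤ} {S : Finset (ℤ × ℤ)} {k : ℕ} {A : Finset (Sym2 (ℤ × ℤ))}
  {j : ℕ}

/-- **Lower bound**: `Bad` is closed, the wired side of `P` is pushed in, the free side is pushed
out. `WP` : the wired sites of `P`. -/
structure Lo (p : ZMod n → ℤ × ℤ) (k : ℕ) (S : Finset (ℤ × ℤ)) (A : Finset (Sym2 (ℤ × ℤ))) (j : ℕ)
    (Bad E P : Finset (ℤ × ℤ)) (ζ : Cfg) (W WP arcP : Set (ℤ × ℤ)) : Prop where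
  bad : Bad ⊆ dk p k S A j
  badj : ∀ v ∈ Bad, ∀ s, (s.1 + s.2) % 2 = 1 → Cor v s → ∃ t ∈ WD p k S A j W,
    ReflTransGen (PStep {v | v ∈ Bad ∨ v ∈ Kc p k S A j}) s t
  sub : E ⊆ dk p k S A j \ Bad
  subP : E ⊆ P
  cl : ∀ x ∈ E, ∀ y ∈ dk p k S A j \ Bad, y ∈ P → ∀ s, Inn S s → Cor x s → Cor y s → y ∈ E
  /-- no square which has a site in common with `E` touches the left bank -/
  t3 : ∀ x ∈ E, ∀ u ∈ dk p k S A j, ∀ s, Inn S s → Cor x s → Cor u s → ∀ o ∈ LB p k A j, ¬ Cor u o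
  /-- the unread squares off `P` touch `E` in even sites only on the wired side of `P` -/
  t4 : ∀ x ∈ E, ∀ y ∈ dk p k S A j \ Bad, y ∉ P → ∀ s, (s.1 + s.2) % 2 = 0 → Cor x s → Cor y s →
    s ∈ WP
  /-- and in inner faces not on the target arc -/
  t4o : ∀ x ∈ E, ∀ y ∈ dk p k S A j \ Bad, y ∉ P → ∀ s, (s.1 + s.2) % 2 = 1 → H192.rf' s ∈ S →
    Cor x s → Cor y s → s ∉ arcP
  /-- `E` touches outer faces only on the target arc or in the common part -/
  bxo : ∀ x ∈ E, ∀ s, (s.1 + s.2) % 2 = 1 → Cor x s → H192.rf' s ∉ S → s ∈ W ∨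
    (ComS p k S A j Bad P s ∧ (∀ y ∈ dk p k S A j \ Bad, y ∈ P → Cor y s → y ∈ E) ∧
      (s ∈ arcP → s ∈ W))
  /-- `E` touches the wired arc only in wired sites of `P` -/
  bxe : ∀ x ∈ E, ∀ y, y ∉ Dq S p k → om p k A y = true → ∀ s, (s.1 + s.2) % 2 = 0 → Cor x s →
    Cor y s → s ∈ WP
  bxi : ∀ x ∈ E, ∀ s, (s.1 + s.2) % 2 = 1 → H192.rf' s ∈ S → Cor x s → ∀ u ∈ dk p k S A j,
    Cor u s → ∀ y, y ∉ Dq S p k → om p k A y = true → ∀ o, (o.1 + o.2) % 2 = 0 → Cor u o →
    Cor y o → ComS p k S A j Bad P s ∧ (s ∈ arcP → s ∈ W)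
  arcb : ∀ s ∈ arcP, ∃ y, y ∉ P ∧ Cor y s
  /-- the outer faces which the interface has met are in the target -/
  met : ∀ i ≤ j - 1, E2.fc (E2.run p k A i) ∉ S → H192.rf (E2.fc (E2.run p k A i)) ∈ W

variable {Bad E P : Finset (ℤ × ℤ)} {ζ : Cfg} {W WP arcP : Set (ℤ × ℤ)}

/-- The sites which are joined to the target by closed squares of `Bad` and closed read squares. -/
def TD (p : ZMod n → ℤ × ℤ) (k : ℕ) (S : Finset (ℤ × ℤ)) (A : Finset (Sym2 (ℤ × ℤ))) (j : ℕ)
    (Bad : Finset (ℤ × ℤ)) (W : Set (ℤ × ℤ)) : Set (ℤ × ℤ) :=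
  {s | ∃ t ∈ W, ReflTransGen (PStep {v | v ∈ Bad ∨ v ∈ Kc p k S A j}) s t}

theorem Lo.fr (h : Lo p k S A j Bad E P ζ W WP arcP) (hp : IsPolygon p) (hS : Encloses p S)
    (hA : A ⊆ edges S) {s : ℤ × ℤ} (hs : s ∈ WD p k S A j W) : s ∈ TD p k S A j Bad W := by
  rcases hs with hs | hs
  · exact ⟨s, hs, ReflTransGen.refl⟩
  · obtain ⟨i, h1, h2, h3⟩ := free_dk hp hS hA hs
    exact ⟨_, h.met i h1 h2, FKA.rtg_symm (rtg_mono (fun v hv => Or.inr hv) h3)⟩

/-- The two faces of the edge of a square. -/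
theorem face_edge {v s : ℤ × ℤ} (hs : (s.1 + s.2) % 2 = 1) (h : Cor v s) :
    ∃ (u : ℤ × ℤ) (r : Fin 4), H192.ed v = s(u, u + dir r) ∧ H192.rf' s = face u r := by
  obtain ⟨a, b⟩ := v
  obtain ⟨x, y⟩ := s
  obtain ⟨h1, h2⟩ := h
  dsimp only at hs h1 h2
  by_cases he : Even (a + b)
  · have he' := Int.even_iff.1 he
    by_cases hx : x = a
    · refine ⟨H192.ea (a, b), 0, ?_, ?_⟩
      · unfold H192.ed
        congr 1
        simp only [H192.ea, H192.eb, he, if_true, dir]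
        ext <;> simp
      · simp only [H192.rf', face, H192.ea]
        ext <;> simp <;> omega
    · refine ⟨H192.eb (a, b), 2, ?_, ?_⟩
      · unfold H192.ed
        rw [Sym2.eq_swap]
        congr 1
        simp only [H192.ea, H192.eb, he, if_true, dir]
        ext <;> simp
      · simp only [H192.rf', face, H192.eb, he, if_true]
        ext <;> simp <;> omega
  · have he' := he
    rw [Int.even_iff] at he'
    by_cases hx : x = a
    · refine ⟨H192.ea (a, b), 1, ?_, ?_⟩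
      · unfold H192.ed
        congr 1
        simp only [H192.ea, H192.eb, he, if_false, dir]
        ext <;> simp
      · simp only [H192.rf', face, H192.ea]
        ext <;> simp <;> omega
    · refine ⟨H192.eb (a, b), 3, ?_, ?_⟩
      · unfold H192.ed
        rw [Sym2.eq_swap]
        congr 1
        simp only [H192.ea, H192.eb, he, if_false, dir]
        ext <;> simp
      · simp only [H192.rf', face, H192.eb, he, if_false]
        ext <;> simp <;> omega

/-- At an inner face the squares off `Dq` are open. -/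
theorem inner_open {s y : ℤ × ℤ} (hs : (s.1 + s.2) % 2 = 1) (hS : H192.rf' s ∈ S)
    (hy : y ∉ Dq S p k) (hys : Cor y s) : om p k A y = true := by
  obtain ⟨u, r, h1, h2⟩ := face_edge hs hys
  have h3 : H192.ed y ∈ edges S := by
    rw [h1, E2.mem_edges, ← h2]
    exact Or.inl hS
  have h4 : H192.ed y ∈ H718.wE p k := by
    by_contra h5
    exact hy ((H718.mem_Dq').2 ⟨h3, h5⟩)
  obtain ⟨i, h5, h6, h7⟩ := H718.mem_wE.1 h4
  exact om_true.2 (Or.inr ⟨i, h5, h6, h7⟩)

/-- Odd contact sites with squares off `D''` are joined to the target or in the common part. -/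
theorem Lo.odd (h : Lo p k S A j Bad E P ζ W WP arcP) (hp : IsPolygon p) (hS : Encloses p S)
    (hA : A ⊆ edges S) {x y s : ℤ × ℤ} (hx : x ∈ E) (hs : (s.1 + s.2) % 2 = 1) (hxs : Cor x s)
    (hys : Cor y s) (hy : y ∉ dk p k S A j \ Bad) :
    s ∈ TD p k S A j Bad W ∨ (ComS p k S A j Bad P s ∧ (s ∈ arcP → s ∈ W)) := by
  by_cases hsS : H192.rf' s ∈ S
  swap
  · rcases h.bxo x hx s hs hxs hsS with h1 | ⟨h1, -, h2⟩
    · exact Or.inl ⟨s, h1, ReflTransGen.refl⟩
    · exact Or.inr ⟨h1, h2⟩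
  by_cases hyB : y ∈ Bad
  · obtain ⟨t, ht, h1⟩ := h.badj y hyB s hs hys
    obtain ⟨t', ht', h2⟩ := h.fr hp hS hA ht
    exact Or.inl ⟨t', ht', h1.trans h2⟩
  have hyd : y ∉ dk p k S A j := fun h1 => hy (mem_sdiff.2 ⟨h1, hyB⟩)
  have hxd : x ∈ dk p k S A j := (mem_sdiff.1 (h.sub hx)).1
  obtain ⟨u, u', o, hu, hu', hus, hus', huo, huo', ho⟩ :=
    turn (X := (↑(dk p k S A j) : Set (ℤ × ℤ))) (mem_coe.2 hxd)
      (fun h1 => hyd (mem_coe.1 h1)) hxs hys
  rw [mem_coe] at hu hu'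
  by_cases hq : u' ∈ Dq S p k
  · have hR : u' ∈ Rd p k S A j := by
      by_contra h1
      exact hu' (mem_dk.2 ⟨hq, h1⟩)
    cases hc : om p k A u' with
    | false => exact Or.inl (h.fr hp hS hA (Or.inr ⟨hs, u', hR, hc, hus'⟩))
    | true =>
      exact absurd huo (h.t3 x hx u hu s (Or.inr hsS) hxs hus o (open_LB hA hR hc (by omega) huo'))
  · exact Or.inr (h.bxi x hx s hs hsS hxs u hu hus u' hq (inner_open hs hsS hq hus') o (by omega)
      huo huo')

/-- **632's condition on the even corners.** -/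
theorem Lo.jo (h : Lo p k S A j Bad E P ζ W WP arcP) (hA : A ⊆ edges S)
    (hJ : ∀ s ∈ WP, ∀ t ∈ WP, ReflTransGen (PStep (op ζ ∩ (↑P : Set (ℤ × ℤ))ᶜ)) s t) :
    Jo E P (dk p k S A j \ Bad) ζ (omB p k A Bad true) := by
  have key : ∀ s, Ct E (dk p k S A j \ Bad) (omB p k A Bad true) s → s ∈ WP := by
    rintro s ⟨hs, ⟨x, hx, hxs⟩, y, hyE, hys, hy⟩
    by_cases hyD : y ∈ dk p k S A j \ Bad
    · have hyP : y ∉ P := fun h1 => hyE (h.cl x hx y hyD h1 s (Or.inl hs) hxs hys)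
      exact h.t4 x hx y hyD hyP s hs hxs hys
    · have ho : H192.Q.kill true Bad (om p k A) y = true := by
        rcases hy with h1 | h1
        · exact absurd h1 hyD
        · exact h1
      have hyB : y ∉ Bad := by
        intro h1
        rw [H192.Q.kill_in h1] at ho
        exact Bool.noConfusion ho
      rw [H192.Q.kill_out hyB] at ho
      have hyd : y ∉ dk p k S A j := fun h1 => hyD (mem_sdiff.2 ⟨h1, hyB⟩)
      have hxd : x ∈ dk p k S A j := (mem_sdiff.1 (h.sub hx)).1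
      by_cases hq : y ∈ Dq S p k
      · have hR : y ∈ Rd p k S A j := by
          by_contra h1
          exact hyd (mem_dk.2 ⟨hq, h1⟩)
        exact absurd hxs (h.t3 x hx x hxd s (Or.inl hs) hxs hxs s (open_LB hA hR ho hs hys))
      · exact h.bxe x hx y hq ho s hs hxs hys
  intro s t hs ht
  exact hJ s (key s hs) t (key t ht)

/-- **632's condition on the odd corners.** -/
theorem Lo.oc (h : Lo p k S A j Bad E P ζ W WP arcP) (hp : IsPolygon p) (hS : Encloses p S)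
    (hA : A ⊆ edges S) : Oc E P arcP (TD p k S A j Bad W) where
  off := by
    rintro s hs ⟨x, hx, hxs⟩ y hyP hyE hys
    have hcom : ComS p k S A j Bad P s → y ∈ dk p k S A j \ Bad := fun h1 =>
      mem_sdiff.2 ⟨mem_dk.2 ⟨h1.sub y hys hyP, h1.rd y hys⟩, h1.bad y hys⟩
    by_cases hsS : H192.rf' s ∈ S
    · have hyD : y ∉ dk p k S A j \ Bad := fun h1 =>
        hyE (h.cl x hx y h1 hyP s (Or.inr hsS) hxs hys)
      rcases h.odd hp hS hA hx hs hxs hys hyD with h1 | h1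
      · exact h1
      · exact absurd (hcom h1.1) hyD
    · rcases h.bxo x hx s hs hxs hsS with h1 | ⟨h1, h2, -⟩
      · exact ⟨s, h1, ReflTransGen.refl⟩
      · exact absurd (h2 y (hcom h1) hyP hys) hyE
  arc := by
    rintro s hsW hs ⟨x, hx, hxs⟩
    obtain ⟨y, hyP, hys⟩ := h.arcb s hsW
    by_cases hsS : H192.rf' s ∈ S
    · by_cases hyD : y ∈ dk p k S A j \ Bad
      · exact absurd hsW (h.t4o x hx y hyD hyP s hs hsS hxs hys)
      · rcases h.odd hp hS hA hx hs hxs hys hyD with h1 | h1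
        · exact h1
        · exact ⟨s, h1.2 hsW, ReflTransGen.refl⟩
    · rcases h.bxo x hx s hs hxs hsS with h1 | ⟨-, -, h1⟩
      · exact ⟨s, h1, ReflTransGen.refl⟩
      · exact ⟨s, h1 hsW, ReflTransGen.refl⟩

end Vale.Agent.P167.H72.SD
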