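import Vale.Agent.P167.H72.SD.Lat2
import Vale.Agent.P167.BR.Defs

/-!
# P167, general `q`, continuity: the long clusters of the frozen squares

The two events whose conditional probabilities have to be small (block BAD).
-/

set_option autoImplicit false

namespace Vale.Agent.P167.H72.SD

open Finset Relation Vale.Agent.P167.FK
open Vale.Agent.P145.FB (PStep)
open Vale.Agent.P167.FKA (Cor)

variable {n : ℕ}

/-- A path of closed squares of the domain `D` leads from an odd corner of `Bad` to a site of the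
box `Bx`. -/
def NSup (D Bad Bx : Finset (ℤ × ℤ)) : Set Cfg :=
  {ω | ∃ s t : ℤ × ℤ, (∃ v ∈ Bad, Cor v s) ∧ (s.1 + s.2) % 2 = 1 ∧ t ∈ BR.sites Bx ∧
    ReflTransGen (PStep {v | v ∈ D ∧ ω v = false}) s t}

/-- A path of open squares of the domain `D` leads from an even corner of `Bad` to a wired site
(corner of an `η`-open square off `D`) or to a site of `F`. -/
def NSlo (D : Finset (ℤ × ℤ)) (η : Cfg) (Bad : Finset (ℤ × ℤ)) (F : Set (ℤ × ℤ)) : Set Cfg :=
  {ω | ∃ s t : ℤ × ℤ, (∃ v ∈ Bad, Cor v s) ∧ (s.1 + s.2) % 2 = 0 ∧ (t ∈ Wr D η ∨ t ∈ F) ∧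
    ReflTransGen (PStep {v | v ∈ D ∧ ω v = true}) s t}

end Vale.Agent.P167.H72.SD
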