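import Vale.Agent.P167.H519.Outer
import Vale.Agent.P167.Top.PlaneW
import Vale.Agent.P167.H192.Dict2
import Vale.Agent.P167.FKA.Out

/-!
# P167, general `q`, continuity: rerouting of dual paths

`kl K ω` : all squares which touch `K` are closed. `rer`: if `K` is a finite set of primal sites which
is closed under open steps, a closed path of `kl K ω` in `R` from `x` to `y` can be replaced by a closed
path of `ω` in `R` from `x` to `y` or to a corner of a square off `R` which touches `K`, provided the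
winding numbers of the loops on `K` are equal at the sites of a set `G` which contains `x`, `y`.
-/

set_option autoImplicit false

namespace Vale.Agent.P167.H72.SD

open Finset Relation Vale.Agent.P167
open Vale.Agent.P145.FB (PStep)
open Vale.Agent.P167.FKA (Cor)

open Classical in
/-- All squares which touch `K` are closed. -/
noncomputable def kl (K : Set (ℤ × ℤ)) (ω : Cfg) : Cfg := fun v =>
  if ∃ s ∈ K, Cor v s then false else ω v

theorem kl_in {K : Set (ℤ × ℤ)} {ω : Cfg} {v : ℤ × ℤ} (h : ∃ s ∈ K, Cor v s) : kl K ω v = false := by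
  unfold kl
  rw [if_pos h]

theorem kl_out {K : Set (ℤ × ℤ)} {ω : Cfg} {v : ℤ × ℤ} (h : ¬ ∃ s ∈ K, Cor v s) :
    kl K ω v = ω v := by
  unfold kl
  rw [if_neg h]

theorem kl_le {K : Set (ℤ × ℤ)} {ω : Cfg} {v : ℤ × ℤ} (h : kl K ω v = true) :
    ω v = true ∧ ¬ ∃ s ∈ K, Cor v s := by
  by_cases h1 : ∃ s ∈ K, Cor v s
  · rw [kl_in h1] at h
    exact Bool.noConfusion h
  · rw [kl_out h1] at h
    exact ⟨h, h1⟩

/-- The closed squares of `R`. -/
def Cl (R : Set (ℤ × ℤ)) (ω : Cfg) : Set (ℤ × ℤ) := {v | v ∈ R ∧ ω v = false}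

/-- From `x` a site is reached which is a corner of a closed square off `R` which touches `K`. -/
def Esc (R K : Set (ℤ × ℤ)) (ω : Cfg) (x : ℤ × ℤ) : Prop :=
  ∃ u v : ℤ × ℤ, ReflTransGen (PStep (Cl R ω)) x u ∧ Cor v u ∧ v ∉ R ∧ ω v = false ∧
    ∃ s ∈ K, Cor v s

theorem Esc.mono {R K K' : Set (ℤ × ℤ)} {ω : Cfg} {x : ℤ × ℤ} (h : K ⊆ K') (h1 : Esc R K ω x) :
    Esc R K' ω x := by
  obtain ⟨u, v, h2, h3, h4, h5, s, h6, h7⟩ := h1
  exact ⟨u, v, h2, h3, h4, h5, s, h h6, h7⟩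

theorem cor_ls (e : Ed) : Cor (hdv e) (ls e) := by
  rcases e with ⟨x, y⟩ | ⟨x, y⟩ <;> by_cases hp : Even (x + y) <;> simp [hdv, ls, Cor, hp]

theorem cor_rs (e : Ed) : Cor (hdv e) (rs e) := by
  rcases e with ⟨x, y⟩ | ⟨x, y⟩ <;> by_cases hp : Even (x + y) <;> simp [hdv, rs, Cor, hp]

/-- the medial edge between two neighbouring sites -/
theorem exists_ed {u s q : ℤ × ℤ} (hu : (u.1 + u.2) % 2 = 0) (hs : (s.1 + s.2) % 2 = 1)
    (h1 : Cor q u) (h2 : Cor q s) : ∃ e : Ed, ls e = u ∧ rs e = s := by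
  obtain ⟨a, b⟩ := q
  obtain ⟨x, y⟩ := u
  obtain ⟨z, w⟩ := s
  unfold Cor at h1 h2
  dsimp only at *
  by_cases hy : y = w
  · refine ⟨Sum.inr (a, y - 1), ?_⟩
    simp only [ls, rs]
    by_cases he : Even (a + (y - 1))
    · simp only [if_pos he]
      rw [Int.even_iff] at he
      refine ⟨?_, ?_⟩ <;> ext <;> dsimp only <;> omega
    · simp only [if_neg he]
      rw [Int.even_iff] at he
      refine ⟨?_, ?_⟩ <;> ext <;> dsimp only <;> omega
  · refine ⟨Sum.inl (x - 1, b), ?_⟩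
    simp only [ls, rs]
    by_cases he : Even (x - 1 + b)
    · simp only [if_pos he]
      rw [Int.even_iff] at he
      refine ⟨?_, ?_⟩ <;> ext <;> dsimp only <;> omega
    · simp only [if_neg he]
      rw [Int.even_iff] at he
      refine ⟨?_, ?_⟩ <;> ext <;> dsimp only <;> omega

variable {ω : Cfg} {R : Set (ℤ × ℤ)} {x y : ℤ × ℤ}

/-- Along a loop on `K`. -/
theorem along {K : Set (ℤ × ℤ)} {ℓ : Finset Ed} (hℓ : IsLoop ω ℓ) (hl : ∀ e ∈ ℓ, ls e ∈ K)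
    {e e' : Ed} (he : e ∈ ℓ) (he' : e' ∈ ℓ) (hx : ReflTransGen (PStep (Cl R ω)) x (rs e)) :
    ReflTransGen (PStep (Cl R ω)) x (rs e') ∨ Esc R K ω x := by
  refine hℓ.induct (p := fun e => ReflTransGen (PStep (Cl R ω)) x (rs e) ∨ Esc R K ω x)
    (fun e he h => ?_) he he' (Or.inl hx)
  rcases h with h | h
  · rcases H192.ls_nx ω e with ⟨h1, -, h2, -⟩ | ⟨h1, h2, -, h4⟩
    · rw [h2]
      exact Or.inl h
    · by_cases hR : hdv e ∈ R
      · refine Or.inl (h.tail ⟨h2.1, h2.2.1, ?_⟩)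
        rw [h4]
        exact ⟨hR, h1⟩
      · exact Or.inr ⟨rs e, hdv e, h, cor_rs e, hR, h1, ls e, hl e he, cor_ls e⟩
  · exact Or.inr h

theorem step_par' {A : Set (ℤ × ℤ)} {s t : ℤ × ℤ} (h : PStep A s t) :
    (t.1 + t.2) % 2 = (s.1 + s.2) % 2 := by
  obtain ⟨h1, h2, -⟩ := h
  omega

/-- **Rerouting around one cluster.** -/
theorem rer_one {K : Finset (ℤ × ℤ)} (hK : ∀ s ∈ K, (s.1 + s.2) % 2 = 0)
    (hcl : ∀ s ∈ K, ∀ t, PStep (op ω) s t → t ∈ K)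
    (hcon : ∀ s ∈ K, ∀ t ∈ K, ReflTransGen (PStep (op ω)) s t)
    (hx : (x.1 + x.2) % 2 = 1)
    (hW : ∀ ℓ, IsLoop ω ℓ → (∀ e ∈ ℓ, ls e ∈ K) → W ℓ y = W ℓ x)
    (h : ReflTransGen (PStep (Cl R (kl K ω))) x y) :
    ReflTransGen (PStep (Cl R ω)) x y ∨ Esc R K ω x := by
  classical
  -- the winding number is constant on the cluster
  have hWK : ∀ ℓ, IsLoop ω ℓ → ∀ s ∈ K, ∀ t ∈ K, W ℓ s = W ℓ t := by
    intro ℓ hℓ s hs t ht
    refine H519.conn_W (hcon s hs t ht) fun u hu v huv => s_step ω ℓ hℓ u v (Or.inl ⟨?_, huv⟩)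
    rw [Int.even_iff, hu, hK s hs]
  -- the loop through an edge
  have hloop : ∀ e, ls e ∈ K → ∃ ℓ, IsLoop ω ℓ ∧ e ∈ ℓ ∧ ∀ e' ∈ ℓ, ls e' ∈ K := by
    intro e he
    obtain ⟨ℓ, h1, h2, h3⟩ := H519.exists_loop (ω := ω)
      ((K.biUnion H519.starP).filter fun e => ls e ∈ K) (fun e he => by
        rw [mem_filter] at he ⊢
        have h4 : ls (nx ω e) ∈ K := by
          rcases H192.ls_nx ω e with ⟨-, h1, -, -⟩ | ⟨-, -, h2, -⟩
          · exact hcl _ he.2 _ h1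
          · rw [h2]
            exact he.2
        exact ⟨mem_biUnion.2 ⟨_, h4, H519.mem_starP_ls _⟩, h4⟩) (e := e)
      (mem_filter.2 ⟨mem_biUnion.2 ⟨_, he, H519.mem_starP_ls _⟩, he⟩)
    exact ⟨ℓ, h1, h2, fun e' he' => (mem_filter.1 (h3 he')).2⟩
  -- the invariant
  have key : ∀ w, ReflTransGen (PStep (Cl R (kl K ω))) x w → (w.1 + w.2) % 2 = 1 ∧
      (ReflTransGen (PStep (Cl R ω)) x w ∨ Esc R K ω x ∨ ∃ ℓ, IsLoop ω ℓ ∧ (∀ e ∈ ℓ, ls e ∈ K) ∧
        (∃ e ∈ ℓ, ReflTransGen (PStep (Cl R ω)) x (rs e) ∧ W ℓ (rs e) = W ℓ x) ∧ W ℓ w ≠ W ℓ x) := by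
    intro w hw
    induction hw with
    | refl => exact ⟨hx, Or.inl ReflTransGen.refl⟩
    | @tail w w' _ hst ih =>
      obtain ⟨hpar, ih⟩ := ih
      have hpar' : (w'.1 + w'.2) % 2 = 1 := by rw [step_par' hst, hpar]
      refine ⟨hpar', ?_⟩
      have hc := FKA.cor_of_step hst
      obtain ⟨q, hq⟩ : ∃ q : ℤ × ℤ, q = (min w.1 w'.1, min w.2 w'.2) := ⟨_, rfl⟩
      have hcl' := hst.2.2
      rw [← hq] at hc hcl'
      obtain ⟨hqR, hqk⟩ := hcl'
      -- along closed paths the winding number is constant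
      have hcst : ∀ ℓ, IsLoop ω ℓ → ∀ z, ReflTransGen (PStep (Cl R ω)) x z → W ℓ z = W ℓ x := by
        intro ℓ hℓ z hz
        refine (H519.conn_W hz fun u hu v huv => s_step ω ℓ hℓ u v (Or.inr ⟨?_, ?_⟩)).symm
        · rw [Int.odd_iff, hu, hx]
        · refine ⟨huv.1, huv.2.1, fun h => ?_⟩
          have h1 : ω _ = false := huv.2.2.2
          have h2 : ω _ = true := h
          rw [h1] at h2
          exact Bool.noConfusion h2
      cases hqo : ω q with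
      | false =>
        have hst' : PStep (Cl R ω) w w' := ⟨hst.1, hst.2.1, by rw [← hq]; exact ⟨hqR, hqo⟩⟩
        rcases ih with ih | ih | ⟨ℓ, h1, h2, h3, h4⟩
        · exact Or.inl (ih.tail hst')
        · exact Or.inr (Or.inl ih)
        · refine Or.inr (Or.inr ⟨ℓ, h1, h2, h3, ?_⟩)
          rw [← s_step ω ℓ h1 w w' (Or.inr ⟨?_, hst.1, hst.2.1, ?_⟩)]
          · exact h4
          · rw [Int.odd_iff, hpar]
          · rw [← hq]
            intro h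
            have h2 : ω q = true := h
            rw [hqo] at h2
            exact Bool.noConfusion h2
      | true =>
        obtain ⟨s, hs, hqs⟩ : ∃ s ∈ K, Cor q s := by
          by_contra h
          rw [kl_out h, hqo] at hqk
          exact Bool.noConfusion hqk
        obtain ⟨e, he1, he2⟩ := exists_ed (hK s hs) hpar hqs hc.1
        obtain ⟨e', he1', he2'⟩ := exists_ed (hK s hs) hpar' hqs hc.2
        -- the two sides
        have hfin : ∀ ℓ, IsLoop ω ℓ → (∀ e ∈ ℓ, ls e ∈ K) → (∃ f ∈ ℓ,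
            ReflTransGen (PStep (Cl R ω)) x (rs f) ∧ W ℓ (rs f) = W ℓ x) →
            (ReflTransGen (PStep (Cl R ω)) x w' ∨ Esc R K ω x ∨ ∃ ℓ, IsLoop ω ℓ ∧
              (∀ e ∈ ℓ, ls e ∈ K) ∧ (∃ e ∈ ℓ, ReflTransGen (PStep (Cl R ω)) x (rs e) ∧
                W ℓ (rs e) = W ℓ x) ∧ W ℓ w' ≠ W ℓ x) := by
          intro ℓ h1 h2 h3
          by_cases h4 : W ℓ w' = W ℓ x
          · obtain ⟨f, hf, hxf, hWf⟩ := h3
            have j1 := s_jump ω ℓ h1 f
            rw [if_pos hf, hWf, hWK ℓ h1 _ (h2 f hf) s hs] at j1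
            have j2 := s_jump ω ℓ h1 e'
            rw [he1', he2', h4, j1] at j2
            have he'ℓ : e' ∈ ℓ := by
              by_contra h5
              rw [if_neg h5] at j2
              omega
            rcases along h1 h2 hf he'ℓ hxf with h5 | h5
            · rw [he2'] at h5
              exact Or.inl h5
            · exact Or.inr (Or.inl h5)
          · exact Or.inr (Or.inr ⟨ℓ, h1, h2, h3, h4⟩)
        rcases ih with ih | ih | ⟨ℓ, h1, h2, h3, -⟩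
        · obtain ⟨ℓ, h1, h2, h3⟩ := hloop e (by rw [he1]; exact hs)
          refine hfin ℓ h1 h3 ⟨e, h2, by rw [he2]; exact ih, ?_⟩
          rw [he2]
          exact hcst ℓ h1 w ih
        · exact Or.inr (Or.inl ih)
        · exact hfin ℓ h1 h2 h3
  obtain ⟨-, h1 | h1 | ⟨ℓ, h1, h2, -, h3⟩⟩ := key y h
  · exact Or.inl h1
  · exact Or.inr h1
  · exact absurd (hW ℓ h1 h2) h3

/-- **Rerouting.** -/
theorem rer {G : Set (ℤ × ℤ)} (hx : (x.1 + x.2) % 2 = 1) (hxG : x ∈ G) (m : ℕ) :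
    ∀ (ω : Cfg) (K : Finset (ℤ × ℤ)) (y : ℤ × ℤ), K.card = m → (∀ s ∈ K, (s.1 + s.2) % 2 = 0) →
    (∀ s ∈ K, ∀ t, PStep (op ω) s t → t ∈ K) →
    (∀ v, v ∉ R → (∃ s ∈ K, Cor v s) → ω v = false) →
    (∀ u v : ℤ × ℤ, (u = x ∨ ∃ r ∈ R, Cor r u) → (u.1 + u.2) % 2 = 1 → Cor v u → v ∉ R →
      (∃ s ∈ K, Cor v s) → u ∈ G) →
    (∀ (ω' : Cfg) (ℓ : Finset Ed), (∀ v, v ∉ R → ω' v = ω v) → (∀ v, ω' v = true → ω v = true) →
      IsLoop ω' ℓ → (∀ e ∈ ℓ, ls e ∈ K) → ∀ u ∈ G, ∀ u' ∈ G, W ℓ u = W ℓ u') →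
    y ∈ G → ReflTransGen (PStep (Cl R (kl K ω))) x y →
    ReflTransGen (PStep (Cl R ω)) x y ∨ Esc R K ω x := by
  classical
  induction m using Nat.strong_induction_on with
  | _ m IH =>
  intro ω K y hm hK hcl hR hG hW hyG h
  rcases K.eq_empty_or_nonempty with rfl | ⟨s0, hs0⟩
  · left
    have e1 : kl (↑(∅ : Finset (ℤ × ℤ))) ω = ω := by
      funext v
      exact kl_out (by simp)
    rwa [e1] at h
  -- one cluster
  set K1 : Finset (ℤ × ℤ) := K.filter fun t => ReflTransGen (PStep (op ω)) s0 t with hK1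
  set K' : Finset (ℤ × ℤ) := K \ K1 with hK'
  have hs01 : s0 ∈ K1 := mem_filter.2 ⟨hs0, ReflTransGen.refl⟩
  have h1K : ∀ s ∈ K1, s ∈ K := fun s hs => (mem_filter.1 hs).1
  have h'K : ∀ s ∈ K', s ∈ K := fun s hs => (mem_sdiff.1 hs).1
  have h1cl : ∀ s ∈ K1, ∀ t, PStep (op ω) s t → t ∈ K1 := fun s hs t hst =>
    mem_filter.2 ⟨hcl s (h1K s hs) t hst, (mem_filter.1 hs).2.tail hst⟩
  have h1con : ∀ s ∈ K1, ∀ t ∈ K1, ReflTransGen (PStep (op ω)) s t := fun s hs t ht =>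
    (FKA.rtg_symm (mem_filter.1 hs).2).trans (mem_filter.1 ht).2
  have hle1 : ∀ v, kl K1 ω v = true → ω v = true := fun v hv => (kl_le hv).1
  have hoff : ∀ v, v ∉ R → kl K1 ω v = ω v := by
    intro v hv
    by_cases h1 : ∃ s ∈ K1, Cor v s
    · obtain ⟨s, hs, hvs⟩ := h1
      have h2 : ω v = false := hR v hv ⟨s, h1K s hs, hvs⟩
      rw [h2]
      exact kl_in ⟨s, hs, hvs⟩
    · exact kl_out h1
  have hkl : kl K ω = kl K' (kl K1 ω) := by
    funext v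
    by_cases h1 : ∃ s ∈ (↑K : Set (ℤ × ℤ)), Cor v s
    · rw [kl_in h1]
      by_cases h2 : ∃ s ∈ (↑K' : Set (ℤ × ℤ)), Cor v s
      · rw [kl_in h2]
      · rw [kl_out h2]
        obtain ⟨s, hs, hvs⟩ := h1
        refine (kl_in ⟨s, ?_, hvs⟩).symm
        by_contra h3
        exact h2 ⟨s, mem_coe.2 (mem_sdiff.2 ⟨mem_coe.1 hs, fun h4 => h3 (mem_coe.2 h4)⟩), hvs⟩
    · have h2 : ¬ ∃ s ∈ (↑K' : Set (ℤ × ℤ)), Cor v s := by
        rintro ⟨s, hs, hvs⟩
        exact h1 ⟨s, mem_coe.2 (h'K s (mem_coe.1 hs)), hvs⟩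
      have h3 : ¬ ∃ s ∈ (↑K1 : Set (ℤ × ℤ)), Cor v s := by
        rintro ⟨s, hs, hvs⟩
        exact h1 ⟨s, mem_coe.2 (h1K s (mem_coe.1 hs)), hvs⟩
      rw [kl_out h1, kl_out h2, kl_out h3]
  have hcard : K'.card < m := by
    rw [← hm]
    refine card_lt_card ((ssubset_iff_of_subset fun s hs => h'K s hs).2 ⟨s0, hs0, fun h1 => ?_⟩)
    exact (mem_sdiff.1 h1).2 hs01
  -- the rest
  have hIH := IH K'.card hcard (kl K1 ω) K' y rfl (fun s hs => hK s (h'K s hs))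
    (fun s hs t hst => by
      have h1 : PStep (op ω) s t := ⟨hst.1, hst.2.1, hle1 _ hst.2.2⟩
      refine mem_sdiff.2 ⟨hcl s (h'K s hs) t h1, fun h2 => ?_⟩
      exact (kl_le (show kl K1 ω _ = true from hst.2.2)).2
        ⟨t, mem_coe.2 h2, (FKA.cor_of_step h1).2⟩)
    (fun v hv ⟨s, hs, hvs⟩ => by rw [hoff v hv]; exact hR v hv ⟨s, h'K s hs, hvs⟩)
    (fun u v h1 h2 h3 h4 ⟨s, hs, hvs⟩ => hG u v h1 h2 h3 h4 ⟨s, h'K s hs, hvs⟩)
    (fun ω' ℓ h1 h2 h3 h4 => hW ω' ℓ (fun v hv => (h1 v hv).trans (hoff v hv))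
      (fun v hv => hle1 v (h2 v hv)) h3 (fun e he => h'K _ (h4 e he)))
    hyG (by rw [← hkl]; exact h)
  -- one cluster
  have hone : ∀ z ∈ G, ReflTransGen (PStep (Cl R (kl K1 ω))) x z →
      ReflTransGen (PStep (Cl R ω)) x z ∨ Esc R K ω x := by
    intro z hz h1
    rcases rer_one (fun s hs => hK s (h1K s hs)) h1cl h1con hx (fun ℓ h2 h3 =>
      hW ω ℓ (fun _ _ => rfl) (fun _ h => h) h2 (fun e he => h1K _ (h3 e he)) z hz x hxG) h1
      with h4 | h4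
    · exact Or.inl h4
    · exact Or.inr (h4.mono (fun s hs => mem_coe.2 (h1K s (mem_coe.1 hs))))
  rcases hIH with h1 | ⟨u, v, h1, h2, h3, h4, s, h5, h6⟩
  · exact hone y hyG h1
  · -- an exit
    have hu : (u = x ∨ ∃ r ∈ R, Cor r u) ∧ (u.1 + u.2) % 2 = 1 := by
      have key : ∀ w, ReflTransGen (PStep (Cl R (kl K1 ω))) x w →
          (w = x ∨ ∃ r ∈ R, Cor r w) ∧ (w.1 + w.2) % 2 = 1 := by
        intro w hw
        induction hw with
        | refl => exact ⟨Or.inl rfl, hx⟩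
        | tail _ hst ih =>
          exact ⟨Or.inr ⟨_, hst.2.2.1, (FKA.cor_of_step hst).2⟩, by rw [step_par' hst, ih.2]⟩
      exact key u h1
    have hsK : s ∈ K := h'K s (mem_coe.1 h5)
    rcases hone u (hG u v hu.1 hu.2 h2 h3 ⟨s, hsK, h6⟩) h1 with h7 | h7
    · exact Or.inr ⟨u, v, h7, h2, h3, hR v h3 ⟨s, hsK, h6⟩, s, mem_coe.2 hsK, h6⟩
    · exact Or.inr h7

end Vale.Agent.P167.H72.SD
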