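import Vale.Agent.P167.H72.SD.CmpUp
import Vale.Agent.P167.H72.SD.Lat3
import Vale.Agent.P167.H72.SD.Rer

/-!
# P167, general `q`, continuity, [CMP]: the lower bound

`cmp_lo` : the probability of the dual event in the explored domain is at least the probability in the
shape times the probability that no open cluster of a bad square reaches the wired bank or the flat
side.
-/

set_option autoImplicit false

namespace Vale.Agent.P167.H72.SD

open Finset Relation Vale.Agent.P167 Vale.Agent.P167.FK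
open Vale.Agent.P145.FB (PStep)
open Vale.Agent.P167.FKA (Cor)
open Vale.Agent.P167.E6 (IsPolygon Encloses edges wiredOpen face dir)
open Vale.Agent.P167.H718 (Dq)
open Vale.Agent.P167.H161 (Rd)
open Vale.Agent.P167.H632Q.Sand (Tc Ct Jo Oc DJ dj_dec sandA)
open Vale.Agent.P167.H542.Q.Inf (CT CT_closed par_CT Par Bd Ou inf_lo good_kill)
open Vale.Agent.P167.BR (sites Jn)

/-- A rectangle of sites. -/
def Rect (a b c d : ℤ) (s : ℤ × ℤ) : Prop := a ≤ s.1 ∧ s.1 ≤ b ∧ c ≤ s.2 ∧ s.2 ≤ d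

/-- The winding number of a loop which does not visit a rectangle is constant on it. -/
theorem rect_const {ω : Cfg} {a b c d : ℤ} {ℓ : Finset Ed} (hℓ : IsLoop ω ℓ)
    (h : ∀ e ∈ ℓ, ¬ Rect a b c d (ls e)) {s t : ℤ × ℤ} (hs : Rect a b c d s) (ht : Rect a b c d t) :
    W ℓ s = W ℓ t := by
  -- neighbours
  have hnb : ∀ s t q : ℤ × ℤ, Rect a b c d s → Rect a b c d t → Cor q s → Cor q t →
      (s.1 + s.2) % 2 ≠ (t.1 + t.2) % 2 → W ℓ s = W ℓ t := by
    intro s t q hs ht hqs hqt hne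
    by_cases h1 : (s.1 + s.2) % 2 = 0
    · obtain ⟨e, h2, h3⟩ := exists_ed h1 (show (t.1 + t.2) % 2 = 1 by omega) hqs hqt
      have h4 := s_jump ω ℓ hℓ e
      rw [if_neg (fun h5 => h e h5 (by rw [h2]; exact hs)), h2, h3, add_zero] at h4
      exact h4
    · obtain ⟨e, h2, h3⟩ := exists_ed (show (t.1 + t.2) % 2 = 0 by omega)
        (show (s.1 + s.2) % 2 = 1 by omega) hqt hqs
      have h4 := s_jump ω ℓ hℓ e
      rw [if_neg (fun h5 => h e h5 (by rw [h2]; exact ht)), h2, h3, add_zero] at h4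
      exact h4.symm
  -- rows and columns
  have hrow : ∀ m : ℕ, ∀ x y : ℤ, Rect a b c d (x, y) → Rect a b c d (x + m, y) →
      W ℓ (x, y) = W ℓ (x + m, y) := by
    intro m
    induction m with
    | zero =>
      intro x y _ _
      rw [Nat.cast_zero, add_zero]
    | succ m ih =>
      intro x y h1 h2
      obtain ⟨a1, a2, a3, a4⟩ := h1
      obtain ⟨b1, b2, b3, b4⟩ := h2
      dsimp only at a1 a2 a3 a4 b1 b2 b3 b4
      push_cast at b1 b2
      have h3 : Rect a b c d (x + m, y) :=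
        ⟨by dsimp only; omega, by dsimp only; omega, a3, a4⟩
      rw [ih x y ⟨a1, a2, a3, a4⟩ h3]
      refine hnb _ _ (x + m, y) h3 ⟨?_, ?_, a3, a4⟩ ⟨Or.inl rfl, Or.inl rfl⟩
        ⟨Or.inr ?_, Or.inl rfl⟩ ?_ <;> push_cast <;> omega
  have hcol : ∀ m : ℕ, ∀ x y : ℤ, Rect a b c d (x, y) → Rect a b c d (x, y + m) →
      W ℓ (x, y) = W ℓ (x, y + m) := by
    intro m
    induction m with
    | zero =>
      intro x y _ _
      rw [Nat.cast_zero, add_zero]
    | succ m ih =>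
      intro x y h1 h2
      obtain ⟨a1, a2, a3, a4⟩ := h1
      obtain ⟨b1, b2, b3, b4⟩ := h2
      dsimp only at a1 a2 a3 a4 b1 b2 b3 b4
      push_cast at b3 b4
      have h3 : Rect a b c d (x, y + m) :=
        ⟨a1, a2, by dsimp only; omega, by dsimp only; omega⟩
      rw [ih x y ⟨a1, a2, a3, a4⟩ h3]
      refine hnb _ _ (x, y + m) h3 ⟨a1, a2, ?_, ?_⟩ ⟨Or.inl rfl, Or.inl rfl⟩
        ⟨Or.inl rfl, Or.inr ?_⟩ ?_ <;> push_cast <;> omega
  -- all sites
  have key : ∀ x y x' y' : ℤ, Rect a b c d (x, y) → Rect a b c d (x', y') →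
      W ℓ (x, y) = W ℓ (x', y') := by
    intro x y x' y' h1 h2
    have h3 : Rect a b c d (x', y) := ⟨h2.1, h2.2.1, h1.2.2.1, h1.2.2.2⟩
    have e1 : W ℓ (x, y) = W ℓ (x', y) := by
      rcases le_total x x' with h4 | h4
      · have h5 := hrow (x' - x).toNat x y h1
        rw [show x + ((x' - x).toNat : ℤ) = x' by omega] at h5
        exact h5 h3
      · have h5 := hrow (x - x').toNat x' y h3
        rw [show x' + ((x - x').toNat : ℤ) = x by omega] at h5
        exact (h5 h1).symm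
    have e2 : W ℓ (x', y) = W ℓ (x', y') := by
      rcases le_total y y' with h4 | h4
      · have h5 := hcol (y' - y).toNat x' y h3
        rw [show y + ((y' - y).toNat : ℤ) = y' by omega] at h5
        exact h5 h2
      · have h5 := hcol (y - y').toNat x' y' h2
        rw [show y' + ((y - y').toNat : ℤ) = y by omega] at h5
        exact (h5 h3).symm
    exact e1.trans e2
  exact key s.1 s.2 t.1 t.2 hs ht

variable {n : ℕ} {p : ZMod n → ℤ × ℤ} {S : Finset (ℤ × ℤ)} {k : ℕ} {A : Finset (Sym2 (ℤ × ℤ))}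
  {j : ℕ} {Bad E P Z : Finset (ℤ × ℤ)} {ζ : Cfg} {W WP arcP F : Set (ℤ × ℤ)} {Q : ℝ} {ω : Cfg}

/-- The hypotheses on the flat side: `F` is a set of primal sites near the flat side, it contains a
rectangle around `Z`; the outer faces at primal sites off `F` are in the target `W`. -/
structure Fsd (p : ZMod n → ℤ × ℤ) (k : ℕ) (S : Finset (ℤ × ℤ)) (A : Finset (Sym2 (ℤ × ℤ)))
    (Z : Finset (ℤ × ℤ)) (W F : Set (ℤ × ℤ)) (a b c d : ℤ) : Prop where
  rect : ∀ s : ℤ × ℤ, (s.1 + s.2) % 2 = 0 → Rect a b c d s → s ∈ F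
  sub : ∀ s ∈ sites Z, Rect (a + 1) (b - 1) (c + 1) (d - 1) s
  out : ∃ s, Rect a b c d s ∧ ReflTransGen (PStep (Oq p k S A)) (base p) s
  tgt : ∀ t ∈ W, ReflTransGen (PStep (Oq p k S A)) (base p) t
  esc : ∀ u v s : ℤ × ℤ, (u.1 + u.2) % 2 = 1 → (s.1 + s.2) % 2 = 0 → (∃ r ∈ Dq S p k, Cor r u) →
    v ∉ Dq S p k → om p k A v = false → Cor v u → Cor v s → (∃ x ∈ Dq S p k, Cor x s) → s ∉ F →
    u ∈ W

/-- The property of the clusters. -/
def PKl (p : ZMod n → ℤ × ℤ) (k : ℕ) (S : Finset (ℤ × ℤ)) (A : Finset (Sym2 (ℤ × ℤ))) (j : ℕ)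
    (F : Set (ℤ × ℤ)) (K : Set (ℤ × ℤ)) : Prop :=
  (∀ s ∈ K, (s.1 + s.2) % 2 = 0 ∧ ∃ x ∈ dk p k S A j, Cor x s) ∧
    ∀ s ∈ K, s ∉ Wr (dk p k S A j) (om p k A) ∧ s ∉ F

/-- The even corners of `Bad`. -/
def Te (Bad : Finset (ℤ × ℤ)) : Set (ℤ × ℤ) := {s | (s.1 + s.2) % 2 = 0 ∧ ∃ v ∈ Bad, Cor v s}

/-- **The dual event does not need the open clusters of `Bad`.** -/
theorem reroute (hp : IsPolygon p) (hS : Encloses p S) (hA : A ⊆ edges S)
    (hZ : Z ⊆ dk p k S A j) {a b c d : ℤ}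
    (hF : Fsd p k S A Z W F a b c d)
    (hω : ∀ v, v ∉ dk p k S A j \ Z → ω v = om0 p k A Z v)
    (hK : PKl p k S A j F (CT true (dk p k S A j \ Z) (Te Bad) ω))
    (h : H192.Q.kill true (FKA.nb (dk p k S A j \ Z) (CT true (dk p k S A j \ Z) (Te Bad) ω)) ω ∈
      As (Dq S p k) Z W) : ω ∈ As (Dq S p k) Z W := by
  classical
  set D := dk p k S A j with hD
  have hTp : Par true (Te Bad) := fun t ht => ht.1
  set Ks : Set (ℤ × ℤ) := CT true (D \ Z) (Te Bad) ω with hKs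
  have hfin : Ks.Finite := by
    refine (sites D).finite_toSet.subset fun s hs => ?_
    obtain ⟨-, x, hx, hxs⟩ := hK.1 s hs
    exact mem_coe.2 (mem_sites'.2 ⟨x, hx, hxs⟩)
  set K : Finset (ℤ × ℤ) := hfin.toFinset with hKf
  have hmem : ∀ s, s ∈ K ↔ s ∈ Ks := fun s => hfin.mem_toFinset
  have hcoe : (↑K : Set (ℤ × ℤ)) = Ks := hfin.coe_toFinset
  -- squares off the domain which touch `K` are closed
  have hoff : ∀ v, v ∉ D \ Z → ∀ s ∈ Ks, Cor v s → ω v = false := by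
    intro v hv s hs hvs
    rw [hω v hv]
    by_cases hvZ : v ∈ Z
    · exact om0_in hvZ
    · rw [om0_out hvZ, ← Bool.not_eq_true]
      intro h1
      have hvD : v ∉ D := fun h2 => hv (mem_sdiff.2 ⟨h2, hvZ⟩)
      exact (hK.2 s hs).1 ⟨even_of (hK.1 s hs).1, v, hvD, h1, hvs⟩
  have hRD : ∀ v, v ∉ Dq S p k \ Z → v ∉ D \ Z := fun v hv h1 =>
    hv (mem_sdiff.2 ⟨(mem_dk.1 (mem_sdiff.1 h1).1).1, (mem_sdiff.1 h1).2⟩)
  have hkl : H192.Q.kill true (FKA.nb (D \ Z) Ks) ω = kl (↑K : Set (ℤ × ℤ)) ω := by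
    rw [hcoe]
    funext v
    by_cases h1 : ∃ s ∈ Ks, Cor v s
    · rw [kl_in h1]
      obtain ⟨s, hs, hvs⟩ := h1
      by_cases h2 : v ∈ D \ Z
      · rw [H192.Q.kill_in (FKA.mem_nb.2 ⟨h2, s, hs, hvs⟩)]
        rfl
      · rw [H192.Q.kill_out (fun h3 => h2 (FKA.mem_nb.1 h3).1)]
        exact hoff v h2 s hs hvs
    · rw [kl_out h1, H192.Q.kill_out]
      intro h2
      obtain ⟨-, s, hs, hvs⟩ := FKA.mem_nb.1 h2
      exact h1 ⟨s, hs, hvs⟩
  rw [hkl] at h
  obtain ⟨x, hx, t, ht, hxp, h1⟩ := h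
  set G : Set (ℤ × ℤ) := {u | Rect a b c d u ∨ ReflTransGen (PStep (Oq p k S A)) (base p) u} with hG
  have hrx : ∀ s ∈ sites Z, Rect a b c d s := by
    intro s hs
    obtain ⟨h2, h3, h4, h5⟩ := hF.sub s hs
    exact ⟨by omega, by omega, by omega, by omega⟩
  have hcl : ∀ (s : ℤ × ℤ) (_ : s ∈ K) (v : ℤ × ℤ) (_ : v ∉ Dq S p k \ Z) (_ : Cor v s),
      v ∈ Z ∨ (v ∉ Dq S p k ∧ om p k A v = false) := by
    intro s hs v hv hvs
    by_cases hvZ : v ∈ Z
    · exact Or.inl hvZ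
    · right
      refine ⟨fun h2 => hv (mem_sdiff.2 ⟨h2, hvZ⟩), ?_⟩
      rw [← om0_out (p := p) (k := k) (A := A) hvZ, ← hω v (hRD v hv)]
      exact hoff v (hRD v hv) s ((hmem s).1 hs) hvs
  have hpath : ReflTransGen (PStep (Cl (↑(Dq S p k \ Z)) (kl (↑K : Set (ℤ × ℤ)) ω))) x t := by
    refine rtg_mono (fun v hv => ?_) h1
    exact ⟨hv.2, hv.1⟩
  have hfinal : ReflTransGen (PStep (Cl (↑(Dq S p k \ Z)) ω)) x t ∨
      Esc (↑(Dq S p k \ Z)) (↑K) ω x := by
    refine rer (G := G) hxp (Or.inl (hrx x hx)) K.card ω K t rfl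
      (fun s hs => (hK.1 s ((hmem s).1 hs)).1) ?_ ?_ ?_ ?_ (Or.inr (hF.tgt t ht)) hpath
    · -- closed under open steps
      intro s hs t' hst
      have hsK := (hmem s).1 hs
      have hc := FKA.cor_of_step hst
      have hst2 : ω (min s.1 t'.1, min s.2 t'.2) = true := hst.2.2
      have h2 : (min s.1 t'.1, min s.2 t'.2) ∈ D \ Z := by
        by_contra h3
        rw [hoff _ h3 s hsK hc.1] at hst2
        exact Bool.noConfusion hst2
      refine (hmem t').2 (CT_closed (c := true) hTp h2 hst2 hsK hc.1 hc.2 ?_)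
      have h3 := (hK.1 s hsK).1
      show (t'.1 + t'.2) % 2 = 0
      obtain ⟨a1, a2, -⟩ := hst
      omega
    · rintro v hv ⟨s, hs, hvs⟩
      exact hoff v (hRD v (fun h2 => hv (mem_coe.2 h2))) s ((hmem s).1 hs) hvs
    · rintro u v hu hup hvu hv ⟨s, hs, hvs⟩
      rcases hcl s hs v (fun h2 => hv (mem_coe.2 h2)) hvs with h2 | ⟨h2, h3⟩
      · exact Or.inl (hrx u (mem_sites'.2 ⟨v, h2, hvu⟩))
      · rcases hu with rfl | ⟨r, hr, hru⟩
        · exact Or.inl (hrx _ hx)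
        · exact Or.inr (free_out hp hS hA hup (mem_sdiff.1 (mem_coe.1 hr)).1 hru h2 h3 hvu)
    · intro ω' ℓ h2 _ h4 h5 u hu u' hu'
      have hrc : ∀ s t, Rect a b c d s → Rect a b c d t → Vale.Agent.P167.W ℓ s =
          Vale.Agent.P167.W ℓ t := fun s t hs ht =>
        rect_const h4 (fun e he hr => by
          have h6 := (hmem _).1 (h5 e he)
          exact (hK.2 _ h6).2 (hF.rect _ (hK.1 _ h6).1 hr)) hs ht
      have hoc : ∀ s, ReflTransGen (PStep (Oq p k S A)) (base p) s →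
          Vale.Agent.P167.W ℓ (base p) = Vale.Agent.P167.W ℓ s := by
        intro s hs
        refine H519.conn_W hs fun u hu v huv => s_step ω' ℓ h4 u v (Or.inr ⟨?_, ?_⟩)
        · have h6 := H192.odd_rf (face (p 0) (E2.ri p 0))
          rw [Int.odd_iff, hu]
          rw [Int.even_iff] at h6
          unfold base
          omega
        · refine ⟨huv.1, huv.2.1, fun h6 => ?_⟩
          have h7 : ω' _ = true := h6
          have h8 := huv.2.2
          have h9 : (min u.1 v.1, min u.2 v.2) ∉ (↑(Dq S p k \ Z) : Set (ℤ × ℤ)) := fun h10 =>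
            h8.1 (mem_sdiff.1 (mem_coe.1 h10)).1
          have h11 : (min u.1 v.1, min u.2 v.2) ∉ Z := fun h12 =>
            h8.1 (mem_dk.1 (hZ h12)).1
          rw [h2 _ h9, hω _ (hRD _ (fun h10 => h9 (mem_coe.2 h10))), om0_out h11, h8.2] at h7
          exact Bool.noConfusion h7
      obtain ⟨b0, hb1, hb2⟩ := hF.out
      have key : ∀ u ∈ G, Vale.Agent.P167.W ℓ u = Vale.Agent.P167.W ℓ b0 := by
        rintro u (hu | hu)
        · exact hrc u b0 hu hb1
        · rw [← hoc u hu, ← hoc b0 hb2]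
      rw [key u hu, key u' hu']
  have hback : ∀ t', t' ∈ W → ReflTransGen (PStep (Cl (↑(Dq S p k \ Z)) ω)) x t' →
      ω ∈ As (Dq S p k) Z W := by
    intro t' ht' h2
    refine ⟨x, hx, t', ht', hxp, ?_⟩
    refine rtg_mono (fun v hv => ?_) h2
    exact ⟨hv.2, hv.1⟩
  rcases hfinal with h2 | ⟨u, v, h2, h3, h4, -, s, h6, h7⟩
  · exact hback t ht h2
  · have hsK : s ∈ K := mem_coe.1 h6
    have hsKs := (hmem s).1 hsK
    refine hback u ?_ h2
    rcases hcl s hsK v (fun h8 => h4 (mem_coe.2 h8)) h7 with h8 | ⟨h8, h9⟩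
    · exact absurd (hF.rect s (hK.1 s hsKs).1 (hrx s (mem_sites'.2 ⟨v, h8, h7⟩))) (hK.2 s hsKs).2
    · have hpu : (u = x ∨ ∃ r ∈ Dq S p k, Cor r u) ∧ (u.1 + u.2) % 2 = 1 := by
        have key : ∀ w, ReflTransGen (PStep (Cl (↑(Dq S p k \ Z)) ω)) x w →
            (w = x ∨ ∃ r ∈ Dq S p k, Cor r w) ∧ (w.1 + w.2) % 2 = 1 := by
          intro w hw
          induction hw with
          | refl => exact ⟨Or.inl rfl, hxp⟩
          | tail _ hst ih =>
            exact ⟨Or.inr ⟨_, (mem_sdiff.1 (mem_coe.1 hst.2.2.1)).1, (FKA.cor_of_step hst).2⟩,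
              by rw [step_par' hst, ih.2]⟩
        exact key u h2
      rcases hpu.1 with rfl | h10
      · exfalso
        refine (hK.2 s hsKs).2 (hF.rect s (hK.1 s hsKs).1 ?_)
        obtain ⟨c1, c2, c3, c4⟩ := hF.sub _ hx
        obtain ⟨d1, d2⟩ := h3
        obtain ⟨d3, d4⟩ := h7
        refine ⟨?_, ?_, ?_, ?_⟩ <;> omega
      · obtain ⟨x', hx', hxs'⟩ := (hK.1 s hsKs).2
        exact hF.esc u v s hpu.2 (hK.1 s hsKs).1 h10 h8 h9 h3 h7 ⟨x', (mem_dk.1 hx').1, hxs'⟩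
          (hK.2 s hsKs).2

theorem as_dec {D : Finset (ℤ × ℤ)} {ω ω' : Cfg} (h : ∀ v, ω v = true → ω' v = true)
    (h1 : ω' ∈ As D Z W) : ω ∈ As D Z W := by
  obtain ⟨x, hx, t, ht, hxp, h2⟩ := h1
  refine ⟨x, hx, t, ht, hxp, rtg_mono (fun v hv => ?_) h2⟩
  refine ⟨?_, hv.2⟩
  show ω v = false
  rw [← Bool.not_eq_true]
  intro h3
  have h4 : ω' v = false := hv.1
  rw [h v h3] at h4
  exact Bool.noConfusion h4

open Classical in
/-- **[CMP], lower bound.** -/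
theorem cmp_lo (hQ : 1 ≤ Q) (hgo : Good (om p k A)) (hζ : Good ζ) (hp : IsPolygon p)
    (hS : Encloses p S) (hA : A ⊆ edges S) (h : Lo p k S A j Bad E P ζ W WP arcP)
    (hJ : ∀ s ∈ WP, ∀ t ∈ WP, ReflTransGen (PStep (op ζ ∩ (↑P : Set (ℤ × ℤ))ᶜ)) s t)
    (hZ : Z ⊆ E) {a b c d : ℤ} (hF : Fsd p k S A Z W F a b c d) :
    (1 - Pr Q (dk p k S A j) (om p k A) (NSlo (dk p k S A j) (om p k A) Bad F)) *
        Pr Q (P \ Z) (cf Z ζ ∅) (As P Z arcP) ≤
      Pr Q (dk p k S A j \ Z) (om0 p k A Z) (As (Dq S p k) Z W) := by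
  have hQ0 : 0 < Q := by linarith
  set D : Finset (ℤ × ℤ) := dk p k S A j with hD
  set η : Cfg := om0 p k A Z with hη
  have hgη : Good η := f_good.1 _ _ _ hgo
  have hZD : Z ⊆ D := fun v hv => (mem_sdiff.1 (h.sub (hZ hv))).1
  have hZB : ∀ v ∈ Z, v ∉ Bad := fun v hv => (mem_sdiff.1 (h.sub (hZ hv))).2
  have hBZ : ∀ v ∈ Bad, v ∉ Z := fun v hv h1 => hZB v h1 hv
  have hTp : Par true (Te Bad) := fun t ht => ht.1
  set AA : Set Cfg := As (Dq S p k) Z W with hAA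
  set G : Cfg → ℝ := fun ω => 1 - AA.indicator 1 ω with hG
  have hGm : ∀ ω ω' : Cfg, (∀ v, ω v = true → ω' v = true) → G ω ≤ G ω' := by
    intro ω ω' hle
    have h1 : AA.indicator (1 : Cfg → ℝ) ω' ≤ AA.indicator 1 ω := by
      by_cases h2 : ω' ∈ AA
      · rw [Set.indicator_of_mem h2, Set.indicator_of_mem (as_dec hle h2)]
        exact le_refl (1 : ℝ)
      · rw [Set.indicator_of_notMem h2]
        exact FKA.ind_nonneg _ _
    show 1 - _ ≤ 1 - _
    linarith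
  -- the clusters consist of even corners of squares of the domain
  have hCT : ∀ ω, ∀ s ∈ CT true (D \ Z) (Te Bad) ω, (s.1 + s.2) % 2 = 0 ∧ ∃ x ∈ D, Cor x s := by
    rintro ω s ⟨t, ht, hts⟩
    refine ⟨par_CT hTp s ⟨t, ht, hts⟩, ?_⟩
    rcases ReflTransGen.cases_tail hts with h1 | ⟨w, -, h1⟩
    · obtain ⟨v, hv, hvs⟩ := ht.2
      exact ⟨v, h.bad hv, h1 ▸ hvs⟩
    · exact ⟨_, (mem_sdiff.1 h1.2.2.1).1, (FKA.cor_of_step h1).2⟩
  have hlo := inf_lo (c := true) (D := D \ Z) (B := Bad) (η := η) (T := Te Bad)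
    (P := PKl p k S A j F) (F := G) hQ hgη hTp
    (fun v hv => mem_sdiff.2 ⟨h.bad hv, hBZ v hv⟩) (fun v hv u hu hvu => ⟨hu, v, hv, hvu⟩)
    (by
      rintro K hK y hy - - ⟨o, h1, h2, h3⟩ -
      exfalso
      have hoZ : o ∉ Z := by
        intro h4
        rw [hη, om0_in h4] at h2
        exact Bool.noConfusion h2
      rw [hη, om0_out hoZ] at h2
      exact (hK.2 y hy).1 ⟨even_of (hK.1 y hy).1, o, fun h4 => h1 (mem_sdiff.2 ⟨h4, hoZ⟩), h2, h3⟩)
    hGm
    (by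
      intro ω hω hPω
      by_cases h1 : H192.Q.kill true (FKA.nb (D \ Z) (CT true (D \ Z) (Te Bad) ω)) ω ∈ AA
      · have h2 : ω ∈ AA := reroute hp hS hA hZD hF hω hPω h1
        show 1 - AA.indicator (1 : Cfg → ℝ) ω ≤ 1 - AA.indicator (1 : Cfg → ℝ) _
        rw [Set.indicator_of_mem h1, Set.indicator_of_mem h2]
        exact le_refl _
      · show 1 - AA.indicator (1 : Cfg → ℝ) ω ≤ 1 - AA.indicator (1 : Cfg → ℝ) _
        rw [Set.indicator_of_notMem h1]
        have h2 : 0 ≤ AA.indicator (1 : Cfg → ℝ) ω := FKA.ind_nonneg _ _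
        linarith)
  -- the frozen domain
  have e1 : (D \ Z) \ Bad = (D \ Bad) \ Z := by
    ext v
    simp only [mem_sdiff]
    tauto
  have e2 : H192.Q.kill true Bad η = cf Z (omB p k A Bad true) ∅ := by
    funext v
    by_cases hvB : v ∈ Bad
    · rw [H192.Q.kill_in hvB]
      simp [cf, hBZ v hvB, omB, H192.Q.kill_in hvB]
    · rw [H192.Q.kill_out hvB]
      by_cases hvZ : v ∈ Z
      · rw [hη, om0_in hvZ]
        simp [cf, hvZ]
      · rw [hη, om0_out hvZ]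
        simp [cf, hvZ, omB, H192.Q.kill_out hvB]
  set a0 : ℝ := Pr Q ((D \ Z) \ Bad) (H192.Q.kill true Bad η) AA with ha0
  have hc1 : Ex Q ((D \ Z) \ Bad) (H192.Q.kill true Bad η) G = 1 - a0 := by
    have h1 := FKA.Ex_sub (Q := Q) (D := (D \ Z) \ Bad) (η := H192.Q.kill true Bad η)
      (fun _ => 1) (AA.indicator 1)
    rw [FKA.Ex_const hQ0] at h1
    exact h1
  have haP : Pr Q (P \ Z) (cf Z ζ ∅) (As P Z arcP) ≤ a0 := by
    have h1 := sandA (T := ∅) hQ hζ (good_kill (c := true) (B := Bad) hgo) h.subP h.sub hZ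
      (empty_subset _) (h.jo hA hJ) (h.oc hp hS hA) (X := Xs Z) (fun s hs => by
        obtain ⟨v, hv, hvs⟩ := mem_sites'.1 hs.2
        exact ⟨hs.1, v, hZ hv, hvs⟩)
    have e3 : ({ω | DJ (P \ Z) (Xs Z) arcP ω} : Set Cfg) = As P Z arcP := by
      ext ω
      exact dj_jn
    rw [e3] at h1
    refine h1.trans ?_
    rw [ha0, e1, e2]
    unfold Pr
    refine FKA.Ex_mono hQ0 fun S' _ => ?_
    by_cases h2 : DJ ((D \ Bad) \ Z) (Xs Z) (TD p k S A j Bad W)
        (cf ((D \ Bad) \ Z) (cf Z (omB p k A Bad true) ∅) S')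
    · have h3 : cf ((D \ Bad) \ Z) (cf Z (omB p k A Bad true) ∅) S' ∈ AA := by
        obtain ⟨s, hs, t, ⟨t', ht', h5⟩, h4⟩ := h2
        refine ⟨s, hs.2, t', ht', hs.1, (rtg_mono (fun v hv => ?_) h4).trans
          (rtg_mono (fun v hv => ?_) h5)⟩
        · obtain ⟨h6, h7⟩ := mem_sdiff.1 (mem_coe.1 hv.2)
          refine ⟨?_, mem_coe.2 (mem_sdiff.2 ⟨(mem_dk.1 (mem_sdiff.1 h6).1).1, h7⟩)⟩
          show _ = false
          rw [← Bool.not_eq_true]
          exact hv.1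
        · rcases hv with hv | hv
          · refine ⟨?_, mem_coe.2 (mem_sdiff.2 ⟨(mem_dk.1 (h.bad hv)).1, hBZ v hv⟩)⟩
            show cf ((D \ Bad) \ Z) (cf Z (omB p k A Bad true) ∅) S' v = false
            have h8 : v ∉ (D \ Bad) \ Z := fun h9 => (mem_sdiff.1 (mem_sdiff.1 h9).1).2 hv
            simp [cf, h8, hBZ v hv, omB, H192.Q.kill_in hv]
          · have hvD : v ∉ D := fun h9 => (mem_dk.1 h9).2 hv.1
            have hvZ : v ∉ Z := fun h9 => hvD (hZD h9)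
            have hvB : v ∉ Bad := fun h9 => hvD (h.bad h9)
            have hvq : v ∈ Dq S p k := by
              have h10 := H161.Rd_subset j hv.1
              rwa [QG.dq_eq] at h10
            refine ⟨?_, mem_coe.2 (mem_sdiff.2 ⟨hvq, hvZ⟩)⟩
            show cf ((D \ Bad) \ Z) (cf Z (omB p k A Bad true) ∅) S' v = false
            have h8 : v ∉ (D \ Bad) \ Z := fun h9 => hvD (mem_sdiff.1 (mem_sdiff.1 h9).1).1
            simp [cf, h8, hvZ, omB, H192.Q.kill_out hvB, hv.2]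
      rw [Set.indicator_of_mem h3]
      exact FKA.ind_le_one _ _
    · rw [Set.indicator_of_notMem (show _ ∉
        {ω | DJ ((D \ Bad) \ Z) (Xs Z) (TD p k S A j Bad W) ω} from h2)]
      exact FKA.ind_nonneg _ _
  have ha00 : 0 ≤ Pr Q (P \ Z) (cf Z ζ ∅) (As P Z arcP) :=
    FKA.Ex_nonneg hQ0 fun S' _ => FKA.ind_nonneg _ _
  -- the two sides
  set PE : Set Cfg := {ω | PKl p k S A j F (CT true (D \ Z) (Te Bad) ω)} with hPE
  rw [hc1] at hlo
  have h1 : Ex Q (D \ Z) η (fun ω => PE.indicator 1 ω * G ω) =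
      Pr Q (D \ Z) η PE - Ex Q (D \ Z) η (fun ω => PE.indicator 1 ω * AA.indicator 1 ω) := by
    unfold Pr
    rw [← FKA.Ex_sub]
    refine FKA.Ex_congr fun S' _ => ?_
    show _ * (1 - _) = _ - _
    ring
  have h2 : Ex Q (D \ Z) η (fun ω => PE.indicator 1 ω * (1 - a0)) =
      (1 - a0) * Pr Q (D \ Z) η PE := by
    unfold Pr
    rw [← FKA.Ex_mul_left]
    refine FKA.Ex_congr fun S' _ => ?_
    ring
  have h3 : Ex Q (D \ Z) η (fun ω => PE.indicator 1 ω * AA.indicator 1 ω) ≤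
      Pr Q (D \ Z) η AA := by
    unfold Pr
    refine FKA.Ex_mono hQ0 fun S' _ => ?_
    have i1 : PE.indicator (1 : Cfg → ℝ) (cf (D \ Z) η S') ≤ 1 := FKA.ind_le_one _ _
    have i2 : 0 ≤ AA.indicator (1 : Cfg → ℝ) (cf (D \ Z) η S') := FKA.ind_nonneg _ _
    nlinarith
  -- the probability of the complement
  have h4 : 1 - Pr Q D (om p k A) (NSlo D (om p k A) Bad F) ≤ Pr Q (D \ Z) η PE := by
    have h5 : Pr Q (D \ Z) η (NSlo D (om p k A) Bad F) ≤
        Pr Q D (om p k A) (NSlo D (om p k A) Bad F) := by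
      refine closed_le_Ex hQ hgo hZD ?_
      intro ω ω' hle
      by_cases h6 : ω ∈ NSlo D (om p k A) Bad F
      · have h7 : ω' ∈ NSlo D (om p k A) Bad F := by
          obtain ⟨s, t, a1, a2, a3, a4⟩ := h6
          refine ⟨s, t, a1, a2, a3, rtg_mono (fun v hv => ?_) a4⟩
          exact ⟨hv.1, hle v hv.2⟩
        rw [Set.indicator_of_mem h7]
        exact FKA.ind_le_one _ _
      · rw [Set.indicator_of_notMem h6]
        exact FKA.ind_nonneg _ _
    have h6 : 1 - Pr Q (D \ Z) η (NSlo D (om p k A) Bad F) ≤ Pr Q (D \ Z) η PE := by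
      have h7 : Ex Q (D \ Z) η (fun ω => 1 - (NSlo D (om p k A) Bad F).indicator 1 ω) =
          1 - Pr Q (D \ Z) η (NSlo D (om p k A) Bad F) := by
        have h8 := FKA.Ex_sub (Q := Q) (D := D \ Z) (η := η)
          (fun _ => 1) ((NSlo D (om p k A) Bad F).indicator 1)
        rw [FKA.Ex_const hQ0] at h8
        exact h8
      rw [← h7]
      unfold Pr
      refine FKA.Ex_mono hQ0 fun S' _ => ?_
      by_cases h8 : cf (D \ Z) η S' ∈ PE
      · rw [Set.indicator_of_mem h8]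
        have i1 : 0 ≤ (NSlo D (om p k A) Bad F).indicator (1 : Cfg → ℝ) (cf (D \ Z) η S') :=
          FKA.ind_nonneg _ _
        have i2 : (1 : Cfg → ℝ) (cf (D \ Z) η S') = 1 := rfl
        rw [i2]
        linarith
      · have h9 : cf (D \ Z) η S' ∈ NSlo D (om p k A) Bad F := by
          by_contra h10
          refine h8 ⟨hCT _, fun s hs => ?_⟩
          obtain ⟨t, ht, hts⟩ := hs
          have hts' : ReflTransGen (PStep {v | v ∈ D ∧ cf (D \ Z) η S' v = true}) t s := by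
            refine rtg_mono (fun v hv => ?_) hts
            exact ⟨(mem_sdiff.1 hv.1).1, hv.2⟩
          exact ⟨fun h11 => h10 ⟨t, s, ht.2, ht.1, Or.inl h11, hts'⟩,
            fun h11 => h10 ⟨t, s, ht.2, ht.1, Or.inr h11, hts'⟩⟩
        rw [Set.indicator_of_mem h9, Set.indicator_of_notMem h8]
        have i2 : (1 : Cfg → ℝ) (cf (D \ Z) η S') = 1 := rfl
        rw [i2]
        norm_num
    linarith
  rw [h1, h2] at hlo
  have h5 : Pr Q (D \ Z) η PE * a0 ≤ Pr Q (D \ Z) η AA := by nlinarith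
  have ha0' : 0 ≤ a0 := ha00.trans haP
  have h6 : (1 - Pr Q D (om p k A) (NSlo D (om p k A) Bad F)) *
      Pr Q (P \ Z) (cf Z ζ ∅) (As P Z arcP) ≤ Pr Q (D \ Z) η PE *
      Pr Q (P \ Z) (cf Z ζ ∅) (As P Z arcP) := mul_le_mul_of_nonneg_right h4 ha00
  have h7 : Pr Q (D \ Z) η PE * Pr Q (P \ Z) (cf Z ζ ∅) (As P Z arcP) ≤
      Pr Q (D \ Z) η PE * a0 :=
    mul_le_mul_of_nonneg_left haP (FKA.Ex_nonneg hQ0 fun S' _ => FKA.ind_nonneg _ _)
  linarith

end Vale.Agent.P167.H72.SD
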