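import Vale.Agent.P167.H72.SD.Jf
import Vale.Agent.P167.H542.Q.Inf
import Vale.Agent.P167.BR.Intf
import Vale.Agent.P167.BR.Basic

/-!
# P167, general `q`, continuity, [CMP]: the upper bound

`cmp_up` : the probability of the dual event in the explored domain is at most the probability in the
shape plus the probability that, in addition, a closed cluster of a bad square reaches a box.
-/

set_option autoImplicit false

namespace Vale.Agent.P167.H72.SD

open Finset Relation Vale.Agent.P167 Vale.Agent.P167.FK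
open Vale.Agent.P145.FB (PStep)
open Vale.Agent.P167.FKA (Cor)
open Vale.Agent.P167.E6 (IsPolygon Encloses edges wiredOpen face dir)
open Vale.Agent.P167.H718 (Dq)
open Vale.Agent.P167.H161 (Rd)
open Vale.Agent.P167.H632Q.Sand (Tc Ct Jo Oc DJ dj_dec sandA)
open Vale.Agent.P167.H542.Q.Inf (CT CT_closed par_CT Par Bd Ou inf_lo good_kill)
open Vale.Agent.P167.BR (sites Jn)

variable {n : ℕ} {p : ZMod n → ℤ × ℤ} {S : Finset (ℤ × ℤ)} {k : ℕ} {A : Finset (Sym2 (ℤ × ℤ))}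
  {j : ℕ} {Bad E P Z Bx : Finset (ℤ × ℤ)} {ζ : Cfg} {W WP arcP : Set (ℤ × ℤ)} {Q : ℝ}

/-- The dual event. -/
def As (D Z : Finset (ℤ × ℤ)) (W : Set (ℤ × ℤ)) : Set Cfg := {ω | Jn false (D \ Z) ω (sites Z) W}

/-- The odd sites of `Z`. -/
def Xs (Z : Finset (ℤ × ℤ)) : Set (ℤ × ℤ) := {s | (s.1 + s.2) % 2 = 1 ∧ s ∈ sites Z}

/-- The configuration with closed squares on `Z`. -/
noncomputable abbrev om0 (p : ZMod n → ℤ × ℤ) (k : ℕ) (A : Finset (Sym2 (ℤ × ℤ)))
    (Z : Finset (ℤ × ℤ)) : Cfg := cf Z (om p k A) ∅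

theorem om0_in {v : ℤ × ℤ} (h : v ∈ Z) : om0 p k A Z v = false := by
  simp [om0, cf, h]

theorem om0_out {v : ℤ × ℤ} (h : v ∉ Z) : om0 p k A Z v = om p k A v := by
  simp [om0, cf, h]

theorem mem_sites' {z : ℤ × ℤ} {D : Finset (ℤ × ℤ)} : z ∈ sites D ↔ ∃ v ∈ D, Cor v z := by
  rw [BR.mem_sites]
  rfl

theorem dj_jn {B Z : Finset (ℤ × ℤ)} {W : Set (ℤ × ℤ)} {ω : Cfg} :
    DJ B (Xs Z) W ω ↔ Jn false B ω (sites Z) W := by
  have e1 : ((op ω)ᶜ ∩ (↑B : Set (ℤ × ℤ))) = (H632.cs false ω ∩ (↑B : Set (ℤ × ℤ))) := by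
    ext v
    constructor
    · rintro ⟨h1, h2⟩
      refine ⟨?_, h2⟩
      show ω v = false
      rw [← Bool.not_eq_true]
      exact h1
    · rintro ⟨h1, h2⟩
      refine ⟨fun h3 => ?_, h2⟩
      have h4 : ω v = true := h3
      have h5 : ω v = false := h1
      rw [h5] at h4
      exact Bool.noConfusion h4
  unfold DJ Jn
  constructor
  · rintro ⟨s, ⟨h1, h2⟩, t, ht, h3⟩
    rw [e1] at h3
    exact ⟨s, h2, t, ht, h1, h3⟩
  · rintro ⟨s, h2, t, ht, h1, h3⟩
    refine ⟨s, ⟨h1, h2⟩, t, ht, ?_⟩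
    rw [e1]
    exact h3

/-- The dual event, stopped at the first read square. -/
theorem jn_dj {ω : Cfg} (hω : ∀ v, v ∉ dk p k S A j \ Z → ω v = om0 p k A Z v)
    (h : ω ∈ As (Dq S p k) Z W) : DJ (dk p k S A j \ Z) (Xs Z) (WD p k S A j W) ω := by
  obtain ⟨u, hu, t, ht, hup, h1⟩ := h
  have key : ∀ w, ReflTransGen (PStep (H632.cs false ω ∩ ↑(Dq S p k \ Z))) u w →
      (w.1 + w.2) % 2 = 1 ∧ ((∃ t' ∈ WD p k S A j W,
        ReflTransGen (PStep ((op ω)ᶜ ∩ ↑(dk p k S A j \ Z))) u t') ∨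
        ReflTransGen (PStep ((op ω)ᶜ ∩ ↑(dk p k S A j \ Z))) u w) := by
    intro w hw
    induction hw with
    | refl => exact ⟨hup, Or.inr ReflTransGen.refl⟩
    | @tail w w' _ hst ih =>
      obtain ⟨hpar, ih⟩ := ih
      refine ⟨by obtain ⟨a1, a2, -⟩ := hst; omega, ?_⟩
      rcases ih with ih | ih
      · exact Or.inl ih
      · have hc := FKA.cor_of_step hst
        obtain ⟨q, hq⟩ : ∃ q : ℤ × ℤ, q = (min w.1 w'.1, min w.2 w'.2) := ⟨_, rfl⟩
        have h2 := hst.2.2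
        rw [← hq] at hc h2
        obtain ⟨h3, h4⟩ := h2
        have h3' : ω q = false := h3
        obtain ⟨h5, h6⟩ := mem_sdiff.1 (mem_coe.1 h4)
        by_cases hqd : q ∈ dk p k S A j
        · refine Or.inr (ih.tail ⟨hst.1, hst.2.1, ?_⟩)
          rw [← hq]
          refine ⟨fun h7 => ?_, mem_coe.2 (mem_sdiff.2 ⟨hqd, h6⟩)⟩
          have h8 : ω q = true := h7
          rw [h3'] at h8
          exact Bool.noConfusion h8
        · have hR : q ∈ Rd p k S A j := by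
            by_contra h7
            exact hqd (mem_dk.2 ⟨h5, h7⟩)
          refine Or.inl ⟨w, Or.inr ⟨hpar, q, hR, ?_, hc.1⟩, ih⟩
          rw [← om0_out (p := p) (k := k) (A := A) h6,
            ← hω q (fun h7 => hqd (mem_sdiff.1 h7).1)]
          exact h3'
  obtain ⟨-, ⟨t', h2, h3⟩ | h2⟩ := key t h1
  · exact ⟨u, ⟨hup, hu⟩, t', h2, h3⟩
  · exact ⟨u, ⟨hup, hu⟩, t, Or.inl ht, h2⟩

/-- The odd sites where `dk` meets closed squares off `dk` are joined to the reference face. -/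
theorem jf_dk (hp : IsPolygon p) (hS : Encloses p S) (hA : A ⊆ edges S) {s x y : ℤ × ℤ}
    (hs : (s.1 + s.2) % 2 = 1) (hx : x ∈ dk p k S A j) (hxs : Cor x s) (hy : y ∉ dk p k S A j)
    (hyc : om p k A y = false) (hys : Cor y s) :
    ReflTransGen (PStep {v | v ∉ dk p k S A j ∧ om p k A v = false}) (base p) s := by
  have hO : Oq p k S A ⊆ {v | v ∉ dk p k S A j ∧ om p k A v = false} := fun v hv =>
    ⟨fun h => hv.1 (mem_dk.1 h).1, hv.2⟩
  by_cases hq : y ∈ Dq S p k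
  · have hR : y ∈ Rd p k S A j := by
      by_contra h7
      exact hy (mem_dk.2 ⟨hq, h7⟩)
    obtain ⟨i, -, h2, h3⟩ := free_dk hp hS hA (j := j) (s := s) ⟨hs, y, hR, hyc, hys⟩
    refine (rtg_mono hO (free_met hp hS hA h2)).trans (rtg_mono ?_ h3)
    exact fun v hv => ⟨fun h => (mem_dk.1 h).2 hv.1, hv.2⟩
  · exact rtg_mono hO (free_out hp hS hA hs (mem_dk.1 hx).1 hxs hq hyc hys)

open Classical in
/-- **[CMP], upper bound.** -/
theorem cmp_up (hQ : 1 ≤ Q) (hgo : Good (om p k A)) (hζ : Good ζ) (hp : IsPolygon p)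
    (hS : Encloses p S) (hk : k < n) (hA : A ⊆ edges S) (h : Up p k S A j Bad E P ζ W arcP)
    (hZ : Z ⊆ E) (hBx : sites Z ⊆ sites Bx) :
    Pr Q (dk p k S A j \ Z) (om0 p k A Z) (As (Dq S p k) Z W) ≤
      Pr Q (P \ Z) (cf Z ζ ∅) (As P Z arcP) +
      Pr Q (dk p k S A j \ Z) (om0 p k A Z)
        (As (Dq S p k) Z W ∩ NSup (dk p k S A j) Bad Bx) := by
  have hQ0 : 0 < Q := by linarith
  set D : Finset (ℤ × ℤ) := dk p k S A j with hD
  set η : Cfg := om0 p k A Z with hη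
  have hgη : Good η := f_good.1 _ _ _ hgo
  have hZD : Z ⊆ D := fun v hv => (mem_sdiff.1 (h.sub (hZ hv))).1
  have hZB : ∀ v ∈ Z, v ∉ Bad := fun v hv => (mem_sdiff.1 (h.sub (hZ hv))).2
  have hBZ : ∀ v ∈ Bad, v ∉ Z := fun v hv h1 => hZB v h1 hv
  set T : Set (ℤ × ℤ) := {s | (s.1 + s.2) % 2 = 1 ∧ ∃ v ∈ Bad, Cor v s} with hT
  set PK : Set (ℤ × ℤ) → Prop := fun K => (∀ s ∈ K, (s.1 + s.2) % 2 = 1 ∧ ∃ x ∈ D, Cor x s) ∧
    ∀ s ∈ K, s ∉ sites Bx with hPK
  set F : Cfg → ℝ := ({ω | DJ (D \ Z) (Xs Z) (WD p k S A j W) ω} : Set Cfg).indicator 1 with hF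
  have hTp : Par false T := fun t ht => ht.1
  have hF0 : ∀ ω, 0 ≤ F ω := fun ω => FKA.ind_nonneg _ _
  have hF1 : ∀ ω, F ω ≤ 1 := fun ω => FKA.ind_le_one _ _
  have hFm : H192.Q.MonC false F := by
    intro ω ω' hle
    by_cases h1 : DJ (D \ Z) (Xs Z) (WD p k S A j W) ω
    · have h2 : DJ (D \ Z) (Xs Z) (WD p k S A j W) ω' := by
        refine dj_dec (ω' := ω) (fun v hv => ?_) h1
        by_contra h3
        rw [Bool.not_eq_true] at h3
        have h4 := hle v h3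
        rw [h4] at hv
        exact Bool.noConfusion hv
      rw [hF, Set.indicator_of_mem (show ω' ∈ {ω | DJ (D \ Z) (Xs Z) (WD p k S A j W) ω} from h2)]
      exact hF1 ω
    · rw [hF, Set.indicator_of_notMem
        (show ω ∉ {ω | DJ (D \ Z) (Xs Z) (WD p k S A j W) ω} from h1)]
      exact hF0 ω'
  -- the clusters consist of odd corners of squares of the domain
  have hCT : ∀ ω, ∀ s ∈ CT false (D \ Z) T ω, (s.1 + s.2) % 2 = 1 ∧ ∃ x ∈ D, Cor x s := by
    rintro ω s ⟨t, ht, hts⟩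
    refine ⟨par_CT hTp s ⟨t, ht, hts⟩, ?_⟩
    rcases ReflTransGen.cases_tail hts with h1 | ⟨w, -, h1⟩
    · obtain ⟨v, hv, hvs⟩ := ht.2
      exact ⟨v, h.bad hv, h1 ▸ hvs⟩
    · exact ⟨_, (mem_sdiff.1 h1.2.2.1).1, (FKA.cor_of_step h1).2⟩
  have hlo := inf_lo (c := false) (D := D \ Z) (B := Bad) (η := η) (T := T) (P := PK) (F := F) hQ hgη
    hTp (fun v hv => mem_sdiff.2 ⟨h.bad hv, hBZ v hv⟩)
    (fun v hv u hu hvu => ⟨hu, v, hv, hvu⟩)
    (by
      intro K hK y hy z hz hby hbz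
      have key : ∀ y ∈ K, Bd false (D \ Z) η y →
          ReflTransGen (PStep (Ou false (D \ Z) η)) (base p) y := by
        rintro y hy ⟨o, h1, h2, h3⟩
        have hoZ : o ∉ Z := fun h4 => hK.2 y hy (hBx (mem_sites'.2 ⟨o, h4, h3⟩))
        have hoD : o ∉ D := fun h4 => h1 (mem_sdiff.2 ⟨h4, hoZ⟩)
        obtain ⟨h4, x, hx, hxy⟩ := hK.1 y hy
        rw [hη, om0_out hoZ] at h2
        refine rtg_mono ?_ (jf_dk hp hS hA h4 hx hxy hoD h2 h3)
        rintro v ⟨hv1, hv2⟩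
        refine ⟨fun h5 => hv1 (mem_sdiff.1 h5).1, ?_⟩
        rw [hη, om0_out (fun h5 => hv1 (hZD h5))]
        exact hv2
      exact (FKA.rtg_symm (key y hy hby)).trans (key z hz hbz))
    hFm
    (by
      intro ω hω hPω
      set K := CT false (D \ Z) T ω with hK
      by_cases h1 : DJ (D \ Z) (Xs Z) (WD p k S A j W) ω
      · have h2 : DJ (D \ Z) (Xs Z) (WD p k S A j W) (H192.Q.kill false (FKA.nb (D \ Z) K) ω) := by
          obtain ⟨s, hs, t, ht, h3⟩ := h1
          refine ⟨s, hs, t, ht, ?_⟩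
          have key : ∀ w, ReflTransGen (PStep ((op ω)ᶜ ∩ ↑(D \ Z))) s w →
              (w.1 + w.2) % 2 = 1 ∧ w ∉ K ∧ ReflTransGen
                (PStep ((op (H192.Q.kill false (FKA.nb (D \ Z) K) ω))ᶜ ∩ ↑(D \ Z))) s w := by
            intro w hw
            induction hw with
            | refl => exact ⟨hs.1, fun h4 => hPω.2 s h4 (hBx hs.2), ReflTransGen.refl⟩
            | @tail w w' _ hst ih =>
              obtain ⟨hpar, hwK, ih⟩ := ih
              have hpar' : (w'.1 + w'.2) % 2 = 1 := by obtain ⟨a1, a2, -⟩ := hst; omega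
              have hc := FKA.cor_of_step hst
              obtain ⟨q, hq⟩ : ∃ q : ℤ × ℤ, q = (min w.1 w'.1, min w.2 w'.2) := ⟨_, rfl⟩
              have h4 := hst.2.2
              rw [← hq] at hc h4
              obtain ⟨h5, h6⟩ := h4
              have hqc : ω q = false := by
                rw [← Bool.not_eq_true]
                exact h5
              have hnt : ∀ u ∈ K, ¬ Cor q u := by
                intro u hu hqu
                exact hwK (CT_closed (c := false) hTp (mem_coe.1 h6) hqc hu hqu hc.1 hpar)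
              have hqn : q ∉ FKA.nb (D \ Z) K := fun h7 => by
                obtain ⟨-, u, hu, hqu⟩ := FKA.mem_nb.1 h7
                exact hnt u hu hqu
              refine ⟨hpar', fun h7 => hnt w' h7 hc.2, ih.tail ⟨hst.1, hst.2.1, ?_⟩⟩
              rw [← hq]
              refine ⟨fun h7 => ?_, h6⟩
              have h8 : H192.Q.kill false (FKA.nb (D \ Z) K) ω q = true := h7
              rw [H192.Q.kill_out hqn, hqc] at h8
              exact Bool.noConfusion h8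
          exact (key t h3).2.2
        rw [hF, Set.indicator_of_mem (show H192.Q.kill false (FKA.nb (D \ Z) K) ω ∈
          {ω | DJ (D \ Z) (Xs Z) (WD p k S A j W) ω} from h2)]
        exact hF1 ω
      · rw [hF, Set.indicator_of_notMem
          (show ω ∉ {ω | DJ (D \ Z) (Xs Z) (WD p k S A j W) ω} from h1)]
        exact FKA.ind_nonneg _ _)
  -- the right hand side
  set c0 : ℝ := Ex Q ((D \ Z) \ Bad) (H192.Q.kill false Bad η) F with hc0
  have e1 : (D \ Z) \ Bad = (D \ Bad) \ Z := by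
    ext v
    simp only [mem_sdiff]
    tauto
  have e2 : H192.Q.kill false Bad η = cf Z (omB p k A Bad false) ∅ := by
    funext v
    by_cases hvB : v ∈ Bad
    · rw [H192.Q.kill_in hvB]
      simp [cf, hBZ v hvB, omB, H192.Q.kill_in hvB]
    · rw [H192.Q.kill_out hvB]
      by_cases hvZ : v ∈ Z
      · rw [hη, om0_in hvZ]
        simp [cf, hvZ]
      · rw [hη, om0_out hvZ]
        simp [cf, hvZ, omB, H192.Q.kill_out hvB]
  have hc0P : c0 ≤ Pr Q (P \ Z) (cf Z ζ ∅) (As P Z arcP) := by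
    have h1 := sandA (T := ∅) hQ (good_kill (c := false) (B := Bad) hgo) hζ h.sub h.subP hZ
      (empty_subset _) (h.jo hp hk hA) (h.oc hA) (X := Xs Z) (fun s hs => by
        obtain ⟨v, hv, hvs⟩ := mem_sites'.1 hs.2
        exact ⟨hs.1, v, hZ hv, hvs⟩)
    refine le_trans ?_ (h1.trans (le_of_eq ?_))
    · rw [hc0, e1, e2]
      unfold Pr
      refine FKA.Ex_mono hQ0 fun S' _ => ?_
      by_cases h2 : DJ (D \ Z) (Xs Z) (WD p k S A j W)
          (cf ((D \ Bad) \ Z) (cf Z (omB p k A Bad false) ∅) S')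
      · have h3 : DJ ((D \ Bad) \ Z) (Xs Z) (WD p k S A j W)
            (cf ((D \ Bad) \ Z) (cf Z (omB p k A Bad false) ∅) S') := by
          obtain ⟨s, hs, t, ht, h4⟩ := h2
          refine ⟨s, hs, t, ht, rtg_mono ?_ h4⟩
          rintro v ⟨hv1, hv2⟩
          refine ⟨hv1, ?_⟩
          obtain ⟨h5, h6⟩ := mem_sdiff.1 (mem_coe.1 hv2)
          refine mem_coe.2 (mem_sdiff.2 ⟨mem_sdiff.2 ⟨h5, fun h7 => hv1 ?_⟩, h6⟩)
          show cf ((D \ Bad) \ Z) (cf Z (omB p k A Bad false) ∅) S' v = true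
          have h8 : v ∉ (D \ Bad) \ Z := fun h9 => (mem_sdiff.1 (mem_sdiff.1 h9).1).2 h7
          simp [cf, h8, h6, omB, H192.Q.kill_in h7]
        rw [Set.indicator_of_mem (show cf ((D \ Bad) \ Z) (cf Z (omB p k A Bad false) ∅) S' ∈
          {ω | DJ ((D \ Bad) \ Z) (Xs Z) (WD p k S A j W) ω} from h3)]
        exact hF1 _
      · rw [hF, Set.indicator_of_notMem (show cf ((D \ Bad) \ Z) (cf Z (omB p k A Bad false) ∅) S' ∉
          {ω | DJ (D \ Z) (Xs Z) (WD p k S A j W) ω} from h2)]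
        exact FKA.ind_nonneg _ _
    · congr 1
      ext ω
      exact dj_jn
  have hc00 : 0 ≤ c0 := FKA.Ex_nonneg hQ0 fun S' _ => hF0 _
  have h3 : Ex Q (D \ Z) η (fun ω => {ω | PK (CT false (D \ Z) T ω)}.indicator 1 ω * c0) ≤ c0 := by
    have h4 : Ex Q (D \ Z) η (fun ω => {ω | PK (CT false (D \ Z) T ω)}.indicator 1 ω * c0) ≤
        Ex Q (D \ Z) η (fun _ => c0) := FKA.Ex_mono hQ0 fun S' _ => by
      have h5 : ({ω | PK (CT false (D \ Z) T ω)} : Set Cfg).indicator (1 : Cfg → ℝ)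
        (cf (D \ Z) η S') ≤ 1 := FKA.ind_le_one _ _
      nlinarith
    rwa [FKA.Ex_const hQ0] at h4
  have h5 : Pr Q (D \ Z) η (As (Dq S p k) Z W) ≤
      Ex Q (D \ Z) η (fun ω => {ω | PK (CT false (D \ Z) T ω)}.indicator 1 ω * F ω +
        (As (Dq S p k) Z W ∩ NSup D Bad Bx).indicator 1 ω) := by
    unfold Pr
    refine FKA.Ex_mono hQ0 fun S' _ => ?_
    set ω := cf (D \ Z) η S' with hω
    have i1 : 0 ≤ ({ω | PK (CT false (D \ Z) T ω)} : Set Cfg).indicator (1 : Cfg → ℝ) ω * F ω :=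
      mul_nonneg (FKA.ind_nonneg _ _) (hF0 _)
    have i2 : 0 ≤ (As (Dq S p k) Z W ∩ NSup D Bad Bx).indicator (1 : Cfg → ℝ) ω :=
      FKA.ind_nonneg _ _
    by_cases h6 : ω ∈ As (Dq S p k) Z W
    · have h7 : DJ (D \ Z) (Xs Z) (WD p k S A j W) ω := jn_dj
        (fun v hv => by rw [hω, FKA.cf_out hv]) h6
      have h8 : F ω = 1 := by
        rw [hF, Set.indicator_of_mem (show ω ∈ {ω | DJ (D \ Z) (Xs Z) (WD p k S A j W) ω} from h7)]
        rfl
      rw [Set.indicator_of_mem h6]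
      by_cases h9 : PK (CT false (D \ Z) T ω)
      · rw [Set.indicator_of_mem (show ω ∈ {ω | PK (CT false (D \ Z) T ω)} from h9), h8]
        have : (1 : Cfg → ℝ) ω = 1 := rfl
        rw [this]
        linarith
      · have h10 : ω ∈ NSup D Bad Bx := by
          by_contra h11
          refine h9 ⟨hCT ω, fun s hs hsB => h11 ?_⟩
          obtain ⟨t, ht, hts⟩ := hs
          refine ⟨t, s, ht.2, ht.1, hsB, rtg_mono ?_ hts⟩
          exact fun v hv => ⟨(mem_sdiff.1 hv.1).1, hv.2⟩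
        rw [Set.indicator_of_mem (show ω ∈ As (Dq S p k) Z W ∩ NSup D Bad Bx from ⟨h6, h10⟩)]
        linarith
    · rw [Set.indicator_of_notMem h6]
      linarith
  have h6 : Ex Q (D \ Z) η (fun ω => {ω | PK (CT false (D \ Z) T ω)}.indicator 1 ω * F ω +
        (As (Dq S p k) Z W ∩ NSup D Bad Bx).indicator 1 ω) =
      Ex Q (D \ Z) η (fun ω => {ω | PK (CT false (D \ Z) T ω)}.indicator 1 ω * F ω) +
      Pr Q (D \ Z) η (As (Dq S p k) Z W ∩ NSup D Bad Bx) := FKA.Ex_add _ _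
  rw [h6] at h5
  linarith

end Vale.Agent.P167.H72.SD
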