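import Vale.Agent.P167.H72.SD.NS

/-!
# P167, general `q`, continuity: the outer faces of the free arc

The outer faces of the free arc are joined by closed squares off `Dq`: `base`, `free_out`
(odd sites which are corners of a square of `Dq` and of a closed square off `Dq`), `free_met` (the outer
faces which the interface has met).
-/

set_option autoImplicit false

namespace Vale.Agent.P167.H72.SD

open Finset Relation Vale.Agent.P167.FK
open Vale.Agent.P145.FB (PStep)
open Vale.Agent.P167.FKA (Cor)
open Vale.Agent.P167.E6 (IsPolygon Encloses edges wiredOpen face dir)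
open Vale.Agent.P167.E2 (ri ext_iff enc_out ro_spec val_aux)
open Vale.Agent.P167.H718 (Dq)
open Vale.Agent.P167.H161 (Rd face_key G_succ fin4_ofNat)

variable {n : ℕ} {p : ZMod n → ℤ × ℤ} {S : Finset (ℤ × ℤ)} {k : ℕ} {A : Finset (Sym2 (ℤ × ℤ))}
  {j : ℕ}

/-- The closed squares off `Dq`. -/
def Oq (p : ZMod n → ℤ × ℤ) (k : ℕ) (S : Finset (ℤ × ℤ)) (A : Finset (Sym2 (ℤ × ℤ))) :
    Set (ℤ × ℤ) := {v | v ∉ Dq S p k ∧ om p k A v = false}

/-- The reference face. -/
noncomputable def base (p : ZMod n → ℤ × ℤ) : ℤ × ℤ := H192.rf (face (p 0) (ri p 0))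

theorem fo_mem (hA : A ⊆ edges S) {v : ℤ × ℤ} (h1 : H192.ed v ∉ edges S) (hp : IsPolygon p)
    (hS : Encloses p S) : v ∈ Oq p k S A := by
  refine ⟨fun h => h1 ((H718.mem_Dq').1 h).1, ?_⟩
  rw [← Bool.not_eq_true, om_true]
  rintro (h | ⟨i, -, -, h⟩)
  · exact h1 (hA h)
  · rw [h] at h1
    exact h1 (E2.p_edge hp hS (i : ZMod n))

/-- A step between two exterior faces. -/
theorem fstep' (hp : IsPolygon p) (hS : Encloses p S) (hA : A ⊆ edges S) {i : ZMod n} {r : Fin 4}
    (h1 : face (p i) r ∉ S) (h2 : face (p i) (r + 1) ∉ S) :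
    PStep (Oq p k S A) (H192.rf (face (p i) r)) (H192.rf (face (p i) (r + 1))) := by
  obtain ⟨⟨h3, h4⟩, h5⟩ := face_key (p i) r
  refine ⟨h3, h4, ?_⟩
  rw [h5]
  refine fo_mem hA ?_ hp hS
  rw [H192.ed_sq ⟨p i, r + 1, rfl⟩]
  rw [E2.mem_edges]
  rintro (h | h)
  · exact h2 h
  · rw [add_sub_cancel_right] at h
    exact h1 h

theorem floc' (hp : IsPolygon p) (hS : Encloses p S) (hA : A ⊆ edges S) {i : ZMod n} {r : Fin 4}
    (hr : face (p i) r ∉ S) :
    ReflTransGen (PStep (Oq p k S A)) (H192.rf (face (p i) (ri p i))) (H192.rf (face (p i) r)) := by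
  have key : ∀ t : ℕ, t < (E2.ro p i - ri p i).val → ReflTransGen (PStep (Oq p k S A))
      (H192.rf (face (p i) (ri p i))) (H192.rf (face (p i) (ri p i + Fin.ofNat 4 t))) := by
    intro t
    induction t with
    | zero =>
      intro _
      have : ri p i + Fin.ofNat 4 0 = ri p i := by
        generalize ri p (i : ZMod n) = r
        revert r
        decide
      rw [this]
    | succ t ih =>
      intro ht
      obtain ⟨h1, h2⟩ := val_aux (E2.ro p i) (ri p i) t (by omega) ht
      refine (ih (by omega)).tail ?_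
      have h3 : t < 4 := by omega
      have e1 : ri p i + Fin.ofNat 4 (t + 1) = ri p i + Fin.ofNat 4 t + 1 := by
        clear h1 h2 ht ih
        generalize ri p (i : ZMod n) = r
        interval_cases t <;> revert r <;> decide
      rw [e1]
      exact fstep' hp hS hA ((ext_iff hp hS).2 h1) ((ext_iff hp hS).2 h2)
  have h1 := key _ ((ext_iff hp hS).1 hr)
  rwa [fin4_ofNat] at h1

/-- Every outer face at the polygon is joined to the reference face. -/
theorem out_face (hp : IsPolygon p) (hS : Encloses p S) (hA : A ⊆ edges S) {i : ZMod n} {r : Fin 4}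
    (hr : face (p i) r ∉ S) :
    ReflTransGen (PStep (Oq p k S A)) (base p) (H192.rf (face (p i) r)) := by
  have hn : NeZero n := ⟨by have := hp.1; omega⟩
  have key : ∀ m : ℕ, ReflTransGen (PStep (Oq p k S A)) (base p)
      (H192.rf (face (p (m : ZMod n)) (ri p (m : ZMod n)))) := by
    intro m
    induction m with
    | zero =>
      rw [Nat.cast_zero]
      exact ReflTransGen.refl
    | succ m ih =>
      rw [G_succ hp]
      exact ih.trans (floc' hp hS hA (enc_out hp hS).2)
  have h1 := key i.val
  rw [ZMod.natCast_zmod_val] at h1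
  exact h1.trans (floc' hp hS hA hr)

/-- The two sides of the edge of a square. -/
theorem side {v s : ℤ × ℤ} (hs : (s.1 + s.2) % 2 = 1) (h : Cor v s) :
    ∃ (u : ℤ × ℤ) (r : Fin 4), H192.ed v = s(u, u + dir r) ∧ s = H192.rf (face u r) := by
  obtain ⟨a, b⟩ := v
  obtain ⟨x, y⟩ := s
  obtain ⟨h1, h2⟩ := h
  dsimp only at hs h1 h2
  by_cases he : Even (a + b)
  · have he' := Int.even_iff.1 he
    by_cases hx : x = a
    · refine ⟨H192.ea (a, b), 0, ?_, ?_⟩
      · unfold H192.ed
        congr 1
        simp only [H192.ea, H192.eb, he, if_true, dir]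
        ext <;> simp
      · simp only [H192.rf, face, H192.ea]
        ext <;> simp <;> omega
    · refine ⟨H192.eb (a, b), 2, ?_, ?_⟩
      · unfold H192.ed
        rw [Sym2.eq_swap]
        congr 1
        simp only [H192.ea, H192.eb, he, if_true, dir]
        ext <;> simp
      · simp only [H192.rf, face, H192.eb, he, if_true]
        ext <;> simp <;> omega
  · have he' := he
    rw [Int.even_iff] at he'
    by_cases hx : x = a
    · refine ⟨H192.ea (a, b), 1, ?_, ?_⟩
      · unfold H192.ed
        congr 1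
        simp only [H192.ea, H192.eb, he, if_false, dir]
        ext <;> simp
      · simp only [H192.rf, face, H192.ea]
        ext <;> simp <;> omega
    · refine ⟨H192.eb (a, b), 3, ?_, ?_⟩
      · unfold H192.ed
        rw [Sym2.eq_swap]
        congr 1
        simp only [H192.ea, H192.eb, he, if_false, dir]
        ext <;> simp
      · simp only [H192.rf, face, H192.eb, he, if_false]
        ext <;> simp <;> omega

/-- **The outer faces are joined by closed squares off `Dq`.** -/
theorem free_out (hp : IsPolygon p) (hS : Encloses p S) (hA : A ⊆ edges S) {s x y : ℤ × ℤ}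
    (hs : (s.1 + s.2) % 2 = 1) (hx : x ∈ Dq S p k) (hxs : Cor x s) (hy : y ∉ Dq S p k)
    (hyc : om p k A y = false) (hys : Cor y s) :
    ReflTransGen (PStep (Oq p k S A)) (base p) s := by
  obtain ⟨u, r, h1, h2⟩ := side hs hxs
  obtain ⟨u', r', h1', h2'⟩ := side hs hys
  have hf : face u r = face u' r' := H192.rf_inj (h2.symm.trans h2')
  -- the edge of `y` is not in the domain
  have hyE : H192.ed y ∉ edges S := by
    intro h
    refine hy ((H718.mem_Dq').2 ⟨h, fun h3 => ?_⟩)
    obtain ⟨i, h4, h5, h6⟩ := H718.mem_wE.1 h3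
    have h7 : om p k A y = true := om_true.2 (Or.inr ⟨i, h4, h5, h6⟩)
    rw [hyc] at h7
    exact Bool.noConfusion h7
  have hfS : face u r ∉ S := by
    intro h
    rw [h1', E2.mem_edges, ← hf] at hyE
    exact hyE (Or.inl h)
  have hxE := ((H718.mem_Dq').1 hx).1
  rw [h1, E2.mem_edges] at hxE
  rcases hxE with h3 | h3
  · exact absurd h3 hfS
  · obtain ⟨i, rfl⟩ := E2.exists_of_mixed hS h3 hfS
    rw [h2]
    exact out_face hp hS hA hfS

/-- The outer faces which the interface has met. -/
theorem free_met (hp : IsPolygon p) (hS : Encloses p S) (hA : A ⊆ edges S) {i : ℕ}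
    (h : E2.fc (E2.run p k A i) ∉ S) :
    ReflTransGen (PStep (Oq p k S A)) (base p) (H192.rf (E2.fc (E2.run p k A i))) := by
  have h1 := E2.run_mem (k := k) hp hS hA i
  obtain ⟨r, hr⟩ := E2.mem_verts.1 h1
  obtain ⟨i', hi'⟩ := E2.exists_of_mixed hS hr (s := (E2.run p k A i).2) h
  have h2 : E2.fc (E2.run p k A i) = face (p i') (E2.run p k A i).2 := by
    rw [hi']
    rfl
  rw [h2] at h ⊢
  exact out_face hp hS hA h

end Vale.Agent.P167.H72.SD
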