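import Vale.Agent.P167.H135.Q.Dens

/-!
# P167, general `q`, [Q-SAND]: the law level of the monotone sandwich

`D` a domain with the outside `η`, `P` another domain with the outside `ζ`. If after opening the bank
squares `Bk ⊆ P \ D` and closing the collar `D \ P` all connections of `P` are connections of `D` and
the increasing function `F` is at most `G`, then `Ex P ζ F ≤ Ex D η G`.
-/

set_option autoImplicit false

namespace Vale.Agent.P167.H72.SD

open Finset Vale.Agent.P167.FK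
open Vale.Agent.P167.H259 (f_markov f_comp comp_gen cf_cf cf_union cf_congr Ex_out cf_mono)
open Vale.Agent.P167.FKA (Ex_mono Ex_congr cf_out Ex_const)

variable {Q : ℝ} {D B P : Finset (ℤ × ℤ)} {η ζ : Cfg} {F G : Cfg → ℝ}

theorem Ex_cond (hQ : 0 < Q) (hη : Good η) (hB : B ⊆ D) (F : Cfg → ℝ) :
    Ex Q D η F = Ex Q D η (fun ω => Ex Q (D \ B) (cf B η (B.filter fun v => ω v = true)) F) := by
  rw [f_markov Q (D \ B) D η F hQ sdiff_subset hη]
  refine Ex_congr fun S hS => Ex_out (fun v hv => ?_) F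
  rw [mem_sdiff, not_and_or, not_not] at hv
  by_cases hvB : v ∈ B
  · simp [cf, hvB, hB hvB]
  · have hvD : v ∉ D := by tauto
    simp [cf, hvB, hvD]

/-- Conditioning on open squares increases. -/
theorem Ex_le_open (hQ : 1 ≤ Q) (hη : Good η) (hB : B ⊆ D) (hF : IncF F) :
    Ex Q D η F ≤ Ex Q (D \ B) (cf B η B) F := by
  have hQ0 : 0 < Q := by linarith
  rw [Ex_cond hQ0 hη hB]
  refine (Ex_mono hQ0 fun S _ => ?_).trans_eq (Ex_const hQ0 _)
  refine f_comp Q _ _ _ F hQ (f_good.1 _ _ _ hη) (f_good.1 _ _ _ hη) (fun v hv => ?_) hF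
  by_cases hvB : v ∈ B
  · simp [cf, hvB]
  · simpa [cf, hvB] using hv

/-- Conditioning on closed squares decreases. -/
theorem closed_le_Ex (hQ : 1 ≤ Q) (hη : Good η) (hB : B ⊆ D) (hF : IncF F) :
    Ex Q (D \ B) (cf B η ∅) F ≤ Ex Q D η F := by
  have hQ0 : 0 < Q := by linarith
  rw [Ex_cond hQ0 hη hB]
  refine (Ex_const hQ0 _).symm.trans_le (Ex_mono hQ0 fun S _ => ?_)
  refine f_comp Q _ _ _ F hQ (f_good.1 _ _ _ hη) (f_good.1 _ _ _ hη) (fun v hv => ?_) hF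
  by_cases hvB : v ∈ B
  · simp [cf, hvB] at hv
  · simpa [cf, hvB] using hv

/-- **The law level of the sandwich.** -/
theorem sand (hQ : 1 ≤ Q) (hη : Good η) (hζ : Good ζ) {Bk : Finset (ℤ × ℤ)} (hBk : Bk ⊆ P \ D)
    (hF : IncF F) (hG : IncF G)
    (hPC : ∀ T, T ⊆ P \ D → Bk ⊆ T → ∀ S, S ⊆ P ∩ D → ∀ a ∈ P ∩ D, a ∉ S →
      PC (cf P ζ (T ∪ S)) (pa a) (pb a) → PC (cf D η S) (pa a) (pb a))
    (hFG : ∀ T, T ⊆ P \ D → Bk ⊆ T → ∀ S, S ⊆ P ∩ D → F (cf P ζ (T ∪ S)) ≤ G (cf D η S)) :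
    Ex Q P ζ F ≤ Ex Q D η G := by
  classical
  have hQ0 : 0 < Q := by linarith
  have hBP : Bk ⊆ P := hBk.trans sdiff_subset
  have hCP : P ∩ D ⊆ P \ Bk := by
    intro v hv
    rw [mem_inter] at hv
    exact mem_sdiff.2 ⟨hv.1, fun h => (mem_sdiff.1 (hBk h)).2 hv.2⟩
  have hgB : Good (cf Bk ζ Bk) := f_good.1 _ _ _ hζ
  -- the domain with the closed collar
  have h3 : Ex Q (P ∩ D) (cf (D \ P) η ∅) G ≤ Ex Q D η G := by
    have e : P ∩ D = D \ (D \ P) := by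
      ext v
      simp only [mem_inter, mem_sdiff]
      tauto
    rw [e]
    exact closed_le_Ex hQ hη sdiff_subset hG
  refine le_trans ?_ h3
  refine (Ex_le_open hQ hζ hBP hF).trans ?_
  rw [f_markov Q (P ∩ D) (P \ Bk) _ F hQ0 hCP hgB]
  refine (Ex_mono hQ0 fun S hS => ?_).trans_eq (Ex_const hQ0 _)
  -- one configuration outside of the common part
  set T : Finset (ℤ × ℤ) := Bk ∪ (S \ D) with hT
  have hTs : T ⊆ P \ D := by
    intro v hv
    rcases mem_union.1 hv with h | h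
    · exact hBk h
    · obtain ⟨h1, h2⟩ := mem_sdiff.1 h
      exact mem_sdiff.2 ⟨(mem_sdiff.1 (hS h1)).1, h2⟩
  have hBT : Bk ⊆ T := subset_union_left
  have e1 : ∀ R, R ⊆ P ∩ D → cf (P ∩ D) (cf (P \ Bk) (cf Bk ζ Bk) S) R = cf P ζ (T ∪ R) := by
    intro R hR
    funext v
    by_cases hvP : v ∈ P
    · by_cases hvD : v ∈ D
      · have h1 : v ∈ P ∩ D := mem_inter.2 ⟨hvP, hvD⟩
        have h2 : v ∉ T := fun h => (mem_sdiff.1 (hTs h)).2 hvD
        simp [cf, hvP, hvD, h2]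
      · have h1 : v ∉ R := fun h => hvD (mem_inter.1 (hR h)).2
        by_cases hvB : v ∈ Bk
        · have h2 : v ∈ T := hBT hvB
          simp [cf, hvP, hvD, hvB, h2]
        · have h2 : v ∈ T ↔ v ∈ S := by
            rw [hT, mem_union, mem_sdiff]
            tauto
          simp [cf, hvP, hvD, hvB, h2, h1]
    · have hvB : v ∉ Bk := fun h => hvP (hBP h)
      simp [cf, hvP, hvB]
  have e2 : ∀ R, R ⊆ P ∩ D → cf (P ∩ D) (cf (D \ P) η ∅) R = cf D η R := by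
    intro R hR
    funext v
    by_cases hvD : v ∈ D
    · by_cases hvP : v ∈ P
      · simp [cf, hvP, hvD]
      · have h1 : v ∉ R := fun h => hvP (mem_inter.1 (hR h)).1
        simp [cf, hvP, hvD, h1]
    · simp [cf, hvD]
  refine comp_gen f_flip f_good hQ (f_good.1 _ _ _ hgB) (f_good.1 _ _ _ hη)
    (fun R hR a ha haR hp => ?_) F G (fun R R' hRR hR' => ?_) (fun R hR => ?_)
  · rw [e2 R hR]
    rw [e1 R hR] at hp
    exact hPC T hTs hBT R hR a ha haR hp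
  · exact hF _ _ (cf_mono hRR)
  · rw [e1 R hR, e2 R hR]
    exact hFG T hTs hBT R hR

/-- **The law level of the sandwich, upper bound**: the collar `D \ P` is opened, the bank squares
`Bk ⊆ P \ D` are closed. -/
theorem sand_up (hQ : 1 ≤ Q) (hη : Good η) (hζ : Good ζ) {Bk : Finset (ℤ × ℤ)} (hBk : Bk ⊆ P \ D)
    (hF : IncF F) (hG : IncF G)
    (hPC : ∀ T, T ⊆ P \ D → Disjoint T Bk → ∀ S, S ⊆ P ∩ D → ∀ a ∈ P ∩ D, a ∉ S →
      PC (cf D η (S ∪ D \ P)) (pa a) (pb a) → PC (cf P ζ (T ∪ S)) (pa a) (pb a))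
    (hFG : ∀ T, T ⊆ P \ D → Disjoint T Bk → ∀ S, S ⊆ P ∩ D →
      G (cf D η (S ∪ D \ P)) ≤ F (cf P ζ (T ∪ S))) :
    Ex Q D η G ≤ Ex Q P ζ F := by
  classical
  have hQ0 : 0 < Q := by linarith
  have hBP : Bk ⊆ P := hBk.trans sdiff_subset
  have hCP : P ∩ D ⊆ P \ Bk := by
    intro v hv
    rw [mem_inter] at hv
    exact mem_sdiff.2 ⟨hv.1, fun h => (mem_sdiff.1 (hBk h)).2 hv.2⟩
  have hgB : Good (cf Bk ζ ∅) := f_good.1 _ _ _ hζ
  have h3 : Ex Q D η G ≤ Ex Q (P ∩ D) (cf (D \ P) η (D \ P)) G := by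
    have e : P ∩ D = D \ (D \ P) := by
      ext v
      simp only [mem_inter, mem_sdiff]
      tauto
    rw [e]
    exact Ex_le_open hQ hη sdiff_subset hG
  refine h3.trans ?_
  refine le_trans ?_ (closed_le_Ex hQ hζ hBP hF)
  rw [f_markov Q (P ∩ D) (P \ Bk) _ F hQ0 hCP hgB]
  refine (Ex_const hQ0 _).symm.trans_le (Ex_mono hQ0 fun S hS => ?_)
  set T : Finset (ℤ × ℤ) := S \ D with hT
  have hTs : T ⊆ P \ D := by
    intro v hv
    obtain ⟨h1, h2⟩ := mem_sdiff.1 hv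
    exact mem_sdiff.2 ⟨(mem_sdiff.1 (hS h1)).1, h2⟩
  have hBT : Disjoint T Bk := by
    rw [disjoint_left]
    intro v hv
    exact (mem_sdiff.1 (hS (mem_sdiff.1 hv).1)).2
  have e1 : ∀ R, R ⊆ P ∩ D → cf (P ∩ D) (cf (P \ Bk) (cf Bk ζ ∅) S) R = cf P ζ (T ∪ R) := by
    intro R hR
    funext v
    by_cases hvP : v ∈ P
    · by_cases hvD : v ∈ D
      · have h1 : v ∈ P ∩ D := mem_inter.2 ⟨hvP, hvD⟩
        have h2 : v ∉ T := fun h => (mem_sdiff.1 (hTs h)).2 hvD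
        simp [cf, hvP, hvD, h2]
      · have h1 : v ∉ R := fun h => hvD (mem_inter.1 (hR h)).2
        by_cases hvB : v ∈ Bk
        · have h2 : v ∉ T := fun h => disjoint_left.1 hBT h hvB
          simp [cf, hvP, hvD, hvB, h2, h1]
        · have h2 : v ∈ T ↔ v ∈ S := by
            rw [hT, mem_sdiff]
            tauto
          simp [cf, hvP, hvD, hvB, h2, h1]
    · have hvB : v ∉ Bk := fun h => hvP (hBP h)
      simp [cf, hvP, hvB]
  have e2 : ∀ R, R ⊆ P ∩ D → cf (P ∩ D) (cf (D \ P) η (D \ P)) R = cf D η (R ∪ D \ P) := by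
    intro R hR
    funext v
    by_cases hvD : v ∈ D
    · by_cases hvP : v ∈ P
      · simp [cf, hvP, hvD]
      · simp [cf, hvP, hvD]
    · simp [cf, hvD]
  refine comp_gen f_flip f_good hQ (f_good.1 _ _ _ hη) (f_good.1 _ _ _ hgB)
    (fun R hR a ha haR hp => ?_) G F (fun R R' hRR hR' => ?_) (fun R hR => ?_)
  · rw [e1 R hR]
    rw [e2 R hR] at hp
    exact hPC T hTs hBT R hR a ha haR hp
  · exact hG _ _ (cf_mono hRR)
  · rw [e1 R hR, e2 R hR]
    exact hFG T hTs hBT R hR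

end Vale.Agent.P167.H72.SD
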