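import Vale.Agent.P167.H72.SD.Met
import Vale.Agent.P167.H446.G.Lit

/-!
# P167, general `q`, [SAND-GEO]: the field `met` of `Lo` for the target arc `wf`
-/

set_option autoImplicit false

open Filter Topology Set Metric

namespace Vale.Agent.P167.H72.SD

open Vale.Agent.P167 Vale.Agent.P167.E6 Vale.Agent.P167.E2 Vale.Agent.P167.H411
open Vale.Agent.P167.H446.G (Cst Bef mq Ku)

section

variable {Φ : (ℝ × ℝ) ≃ₜ (ℝ × ℝ)} {ψ : ℂ → ℂ} {δ : ℕ → ℝ} {N k : ℕ → ℕ}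
  {p : ∀ n, ZMod (N n) → ℤ × ℤ} {S : ℕ → Finset (ℤ × ℤ)} {ψn : ℕ → ℂ → ℂ}

theorem mq_le {L s d : ℝ} (hL : 0 ≤ L) (hs : 0 < s) (hd : 0 < d) :
    (mq L s d : ℝ) * d ≤ 3 / 2 * (L + s) := by
  have h2 : √2 ≤ 3 / 2 := by
    rw [Real.sqrt_le_left (by norm_num)]
    norm_num
  have h0 : (0 : ℝ) < √2 := by positivity
  have e : d = √2 * H446.G.dl d := by
    unfold H446.G.dl
    field_simp
  have h3 := H446.G.Nn_le hs hd
  have h4 := H446.G.Ku_le hL hs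
  have h5 : ((H446.G.Nn s d / 2 : ℕ) : ℝ) ≤ H446.G.Nn s d := by
    exact_mod_cast Nat.div_le_self _ _
  have hdl := H446.G.dl_pos hd
  have h6 : (0 : ℝ) ≤ Ku L s := Nat.cast_nonneg _
  have h7 : (mq L s d : ℝ) * H446.G.dl d ≤ L + s := by
    unfold mq
    push_cast at h5 ⊢
    have a1 : (Ku L s : ℝ) * (H446.G.dl d * H446.G.Nn s d) ≤ Ku L s * s := mul_le_mul_of_nonneg_left h3 h6
    have a2 : ((H446.G.Nn s d / 2 : ℕ) : ℝ) * H446.G.dl d ≤ H446.G.Nn s d * H446.G.dl d := mul_le_mul_of_nonneg_right h5 hdl.le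
    nlinarith
  have h8 : (0 : ℝ) ≤ (mq L s d : ℝ) * H446.G.dl d := by positivity
  have e2 : (mq L s d : ℝ) * d = √2 * ((mq L s d : ℝ) * H446.G.dl d) := by
    have : ∀ a b c : ℝ, b = √2 * c → a * b = √2 * (a * c) := by
      rintro a b c rfl
      ring
    exact this _ _ _ e
  rw [e2]
  nlinarith

/-- **The field `met` of `Lo`.** -/
theorem met_wf (H : Set6 Φ ψ δ N k p S ψn) {T R : ℝ} (hT : 0 ≤ T) (hR : 0 ≤ R) :
    ∃ ρ : ℝ, 0 < ρ ∧ ∀ C : Cst, C.T = T → C.R = R → 0 ≤ C.Lc → C.Lc ≤ ρ → ∀ s : ℝ, 0 < s → s ≤ ρ →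
      ∀ᶠ n in atTop, ∀ A j, Bef (exn δ N k p S ψn n) C.T C.R A j → ∀ i ≤ j - 1,
        fc (run (p n) (k n) A i) ∉ S n →
          H192.rf (fc (run (p n) (k n) A i)) ∈ H446.G.wf C (p n) (k n) (S n) (δ n) s := by
  obtain ⟨ρ, hρ, h⟩ := lo_met H hT hR
  refine ⟨ρ / 8, by positivity, ?_⟩
  rintro C rfl rfl hL hLρ s hs hsρ
  filter_upwards [h, (Metric.tendsto_nhds.1 H.appr.2.1) (ρ / 8) (by positivity)]
    with n h hδ A j hb i hi hf
  obtain ⟨hd, -⟩ := H.appr.1 n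
  rw [dist_zero_right, Real.norm_of_nonneg hd.le] at hδ
  refine h A j hb (k n - (mq C.Lc s (δ n) + 1)) ?_ i hi hf
  have h1 := mq_le hL hs hd
  have h2 : (k n : ℝ) - ((k n - (mq C.Lc s (δ n) + 1) : ℕ) : ℝ) ≤ mq C.Lc s (δ n) + 1 := by
    have : k n ≤ (k n - (mq C.Lc s (δ n) + 1)) + (mq C.Lc s (δ n) + 1) := by omega
    have h3 : (k n : ℝ) ≤ ((k n - (mq C.Lc s (δ n) + 1) : ℕ) : ℝ) + ((mq C.Lc s (δ n) + 1 : ℕ) : ℝ) := by
      exact_mod_cast this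
    push_cast at h3
    linarith
  calc ((k n : ℝ) - ((k n - (mq C.Lc s (δ n) + 1) : ℕ) : ℝ)) * δ n
      ≤ (mq C.Lc s (δ n) + 1) * δ n := mul_le_mul_of_nonneg_right h2 hd.le
    _ < ρ := by
        rw [add_mul, one_mul]
        linarith

end

end Vale.Agent.P167.H72.SD
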