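import Vale.Agent.P167.H718.Dob

/-!
# P167, general `q`, continuity: the wired sites of a shape are joined

For `etaW D q k` in a polygon without chords all even corners of the open squares outside of `D` are
joined by open squares outside of `D`.
-/

set_option autoImplicit false

namespace Vale.Agent.P167.H72.SD

open Finset Relation Vale.Agent.P167 Vale.Agent.P167.FK
open Vale.Agent.P145.FB (PStep)
open Vale.Agent.P167.E6 (IsPolygon Encloses dir face)
open Vale.Agent.P167.H718 (OutC etaW mem_opW Chordless step_face step_cases)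

variable {D : Finset (ℤ × ℤ)} {n k : ℕ} {q : ZMod n → ℤ × ℤ}

theorem outC_symm {η : Cfg} {s t : ℤ × ℤ} (h : OutC η D s t) : OutC η D t s := by
  unfold OutC at h ⊢
  induction h with
  | refl => exact ReflTransGen.refl
  | tail _ h1 ih => exact ReflTransGen.head h1.symm ih

theorem corner_dir {v s : ℤ × ℤ} {r : Fin 4} (hv : ¬ Even (v.1 + v.2)) (hs : Even (s.1 + s.2))
    (h1 : s.1 = (face v r).1 ∨ s.1 = (face v r).1 + 1)
    (h2 : s.2 = (face v r).2 ∨ s.2 = (face v r).2 + 1) : s = v + dir r ∨ s = v + dir (r + 1) := by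
  obtain ⟨a, b⟩ := v
  obtain ⟨x, y⟩ := s
  rw [Int.even_iff] at hv hs
  have g0 : (0 : Fin 4) + 1 = 1 := rfl
  have g1 : (1 : Fin 4) + 1 = 2 := rfl
  have g2 : (2 : Fin 4) + 1 = 3 := rfl
  have g3 : (3 : Fin 4) + 1 = 0 := rfl
  have hr : r = 0 ∨ r = 1 ∨ r = 2 ∨ r = 3 := by fin_cases r <;> simp
  have e0 : dir 0 = (1, 0) := rfl
  have e1 : dir 1 = (0, 1) := rfl
  have e2 : dir 2 = (-1, 0) := rfl
  have e3 : dir 3 = (0, -1) := rfl
  have f0 : face (a, b) 0 = (a + 0, b + 0) := rfl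
  have f1 : face (a, b) 1 = (a + -1, b + 0) := rfl
  have f2 : face (a, b) 2 = (a + -1, b + -1) := rfl
  have f3 : face (a, b) 3 = (a + 0, b + -1) := rfl
  dsimp only at hv hs
  rcases hr with rfl | rfl | rfl | rfl
  · rw [f0] at h1 h2; rw [g0, e0, e1]; simp only [Prod.mk_add_mk, Prod.mk.injEq] at h1 h2 ⊢; omega
  · rw [f1] at h1 h2; rw [g1, e1, e2]; simp only [Prod.mk_add_mk, Prod.mk.injEq] at h1 h2 ⊢; omega
  · rw [f2] at h1 h2; rw [g2, e2, e3]; simp only [Prod.mk_add_mk, Prod.mk.injEq] at h1 h2 ⊢; omega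
  · rw [f3] at h1 h2; rw [g3, e3, e0]; simp only [Prod.mk_add_mk, Prod.mk.injEq] at h1 h2 ⊢; omega

/-- Around a dual boundary site of the wired arc. -/
theorem around_site (hq : IsPolygon q) (hD : Encloses q D) {j : ℕ} (hj : k < j) (hjn : j < n)
    (hev : ¬ Even ((q j).1 + (q j).2)) {r : Fin 4} (hr : face (q (j : ZMod n)) r ∉ D) :
    OutC (etaW D q k) D (q ((j : ZMod n) - 1)) (q (j : ZMod n) + dir r) ∧
      OutC (etaW D q k) D (q ((j : ZMod n) - 1)) (q (j : ZMod n) + dir (r + 1)) := by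
  have hop : ∀ t : Fin 4, face (q j) t ∉ D →
      face (q j) t ∈ op (etaW D q k) ∩ (↑D : Set (ℤ × ℤ))ᶜ := by
    intro t ht
    refine ⟨?_, fun h => ht (Finset.mem_coe.1 h)⟩
    show etaW D q k _ = true
    unfold etaW
    rw [decide_eq_true_iff, mem_opW]
    exact ⟨⟨j, hj, hjn, hev, t, rfl⟩, ht⟩
  have hst : ∀ t : Fin 4, face (q (j : ZMod n)) t ∉ D →
      PStep (op (etaW D q k) ∩ (↑D : Set (ℤ × ℤ))ᶜ) (q (j : ZMod n) + dir t)
        (q (j : ZMod n) + dir (t + 1)) := fun t ht => step_face (hop t ht)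
  have e1 : q ((j : ZMod n) - 1) = q (j : ZMod n) + dir (E2.ri q (j : ZMod n)) :=
    E2.ri_spec hq _
  have key : ∀ t : ℕ, t < (E2.ro q (j : ZMod n) - E2.ri q (j : ZMod n)).val →
      OutC (etaW D q k) D (q ((j : ZMod n) - 1))
        (q (j : ZMod n) + dir (E2.ri q (j : ZMod n) + Fin.ofNat 4 t)) ∧
      face (q (j : ZMod n)) (E2.ri q (j : ZMod n) + Fin.ofNat 4 t) ∉ D := by
    intro t
    induction t with
    | zero =>
      intro ht
      have : E2.ri q (j : ZMod n) + Fin.ofNat 4 0 = E2.ri q (j : ZMod n) := by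
        generalize E2.ri q (j : ZMod n) = r
        revert r
        decide
      rw [this, ← e1]
      exact ⟨ReflTransGen.refl, (E2.enc_in hq hD).1⟩
    | succ t ih =>
      intro ht
      obtain ⟨h1, h2⟩ := E2.val_aux (E2.ro q (j : ZMod n)) (E2.ri q (j : ZMod n)) t (by omega) ht
      obtain ⟨h3, h4⟩ := ih (by omega)
      have h5 : t < 4 := by omega
      have e2 : E2.ri q (j : ZMod n) + Fin.ofNat 4 (t + 1) =
          E2.ri q (j : ZMod n) + Fin.ofNat 4 t + 1 := by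
        clear h1 h2 ht ih h3 h4
        generalize E2.ri q (j : ZMod n) = r
        interval_cases t <;> revert r <;> decide
      rw [e2]
      exact ⟨h3.tail (hst _ h4), (E2.ext_iff hq hD).2 h2⟩
  have hfin : ∀ b r : Fin 4, b + Fin.ofNat 4 (r - b).val = r := by decide
  obtain ⟨h1, h2⟩ := key _ ((E2.ext_iff hq hD).1 hr)
  rw [hfin] at h1 h2
  exact ⟨h1, h1.tail (hst _ h2)⟩

/-- **The wired sites are joined.** -/
theorem wired_join (hq : IsPolygon q) (hD : Encloses q D) (hc : Chordless q) {s t : ℤ × ℤ}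
    (hs : Even (s.1 + s.2)) (ht : Even (t.1 + t.2))
    (hs' : ∃ v, v ∉ D ∧ etaW D q k v = true ∧ (s.1 = v.1 ∨ s.1 = v.1 + 1) ∧
      (s.2 = v.2 ∨ s.2 = v.2 + 1))
    (ht' : ∃ v, v ∉ D ∧ etaW D q k v = true ∧ (t.1 = v.1 ∨ t.1 = v.1 + 1) ∧
      (t.2 = v.2 ∨ t.2 = v.2 + 1)) : OutC (etaW D q k) D s t := by
  have hd := H718.dob_etaW (k := k) hq hD hc
  have key : ∀ s : ℤ × ℤ, Even (s.1 + s.2) → (∃ v, v ∉ D ∧ etaW D q k v = true ∧
      (s.1 = v.1 ∨ s.1 = v.1 + 1) ∧ (s.2 = v.2 ∨ s.2 = v.2 + 1)) →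
      ∃ i : ℕ, k ≤ i ∧ i ≤ n ∧ Even ((q i).1 + (q i).2) ∧ OutC (etaW D q k) D (q i) s := by
    rintro s hs ⟨v, hv, hvo, h1, h2⟩
    unfold etaW at hvo
    rw [decide_eq_true_iff, mem_opW] at hvo
    obtain ⟨⟨j, hj, hjn, hev, r, rfl⟩, -⟩ := hvo
    obtain ⟨h3, h4⟩ := around_site (k := k) hq hD hj hjn hev hv
    have e1 : (j : ZMod n) - 1 = ((j - 1 : ℕ) : ZMod n) := by
      rw [Nat.cast_sub (by omega)]
      simp
    refine ⟨j - 1, by omega, by omega, ?_, ?_⟩
    · have h5 := H718.par_succ hq (((j - 1 : ℕ) : ZMod n))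
      rw [← e1, sub_add_cancel] at h5
      rw [← e1]
      by_contra h6
      exact hev (h5.2 h6)
    · rw [← e1]
      rcases corner_dir hev hs h1 h2 with rfl | rfl
      · exact h3
      · exact h4
  obtain ⟨i, h1, h2, h3, h4⟩ := key s hs hs'
  obtain ⟨i', h1', h2', h3', h4'⟩ := key t ht ht'
  exact (outC_symm h4).trans ((hd.join i i' h1 h2 h1' h2' h3 h3').trans h4')

end Vale.Agent.P167.H72.SD
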